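import Vale.Agent.P224.S15.Z15.Dat

/-!
Certificate data in dimension fifteen: the free columns.
-/

namespace Vale.Agent.P224.S15.Z15

open Vale.Agent.P224.POS Vale.Agent.P224.S15
open Vale.Agent.P224.SP (ev Q4)

noncomputable section

/-- the common denominator of the polynomial columns -/
def c0 : ℕ := 165181768335360000000

/-- factor of the approximations -/
def kB : ℕ := 629407744

/-- factor of the polynomial columns -/
def kF : ℕ := 1

/-- free value column 0 -/
def vf0 : VFz := ⟨⟨8, 0, 0, 0, 0⟩, [38719192760004960000000, -185719969751460480000000, 359788568136832800000000, -359863161557760000000000, 195072759785484000000000, -53969825860110720000000, 5934411756018909224544],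
    .c 0,
    .c 0,
    .c 0,
    .c 0⟩

/-- free value column 1 -/
def vf1 : VFz := ⟨⟨8, 0, 0, 0, 1⟩, [-77438385520009920000000, 371439939502920960000000, -719577136273665600000000, 719726323115520000000000, -390145519570968000000000, 107939651720221440000000, -11868823512037818449088],
    .c 0,
    .c 0,
    .c 0,
    .c 0⟩

/-- free value column 2 -/
def vf2 : VFz := ⟨⟨8, 0, 0, 0, 2⟩, [38719192760004960000000, -185719969751460480000000, 359788568136832800000000, -359863161557760000000000, 195072759785484000000000, -53969825860110720000000, 5934411756018909224544],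
    .c 0,
    .mul (.c (-1)) (.mul (.mul (.add (.mul (.sub (.c (-14)) (.mul (.c 2) (.a))) (.P)) (.mul (.mul (.mul (.c 16) (.a)) (.add (.c 14) (.a))) (.s))) (.pow (.P) 3)) (.c 2)),
    .c 0,
    .mul (.c (-1)) (.mul (.mul (.mul (.mul (.c 2) (.a)) (.add (.c 14) (.a))) (.pow (.P) 4)) (.c 2))⟩

/-- free value column 3 -/
def vf3 : VFz := ⟨⟨8, 0, 1, 0, 0⟩, [48852066444105294110720, -198501733042785684664320, 296592773089286611660800, -184692544910230682214400, 22332802106364211660800, 21349736224466795335680, -6009141811766327440192],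
    .c 0,
    .c 0,
    .c 0,
    .c 0⟩

/-- free value column 4 -/
def vf4 : VFz := ⟨⟨8, 0, 1, 0, 1⟩, [-20265747368200668221440, 25563526582650409328640, 126391590095092376678400, -350341233295058635571200, 345479915358239576678400, -150639124169155030671360, 23887107135570473329472],
    .c 0,
    .c 0,
    .c 0,
    .c 0⟩

/-- free value column 5 -/
def vf5 : VFz := ⟨⟨8, 0, 1, 0, 2⟩, [-28586319075904625889280, 172938206460135275335680, -422984363184378988339200, 535033778205289317785600, -367812717464603788339200, 129289387944688235335680, -17877965323804145889280],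
    .c 0,
    .mul (.c (-1)) (.mul (.mul (.add (.mul (.sub (.c (-14)) (.mul (.c 2) (.a))) (.P)) (.mul (.mul (.mul (.c 16) (.a)) (.add (.c 14) (.a))) (.s))) (.pow (.P) 3)) (.mul (.c 2) (.t))),
    .c 0,
    .mul (.c (-1)) (.mul (.mul (.mul (.mul (.c 2) (.a)) (.add (.c 14) (.a))) (.pow (.P) 4)) (.mul (.c 2) (.t)))⟩

/-- free value column 6 -/
def vf6 : VFz := ⟨⟨8, 0, 1, 1, 0⟩, [-9226722695902145889280, 80078221584405035335680, -243090079115962588339200, 355102197426409317785600, -270276337571861788339200, 102304475014632875335680, -14910759445794691277008],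
    .mul (.c (-1)) (.mul (.mul (.add (.mul (.sub (.c (-14)) (.mul (.c 2) (.a))) (.P)) (.mul (.mul (.mul (.c 16) (.a)) (.add (.c 14) (.a))) (.s))) (.pow (.P) 3)) (.c (-2))),
    .c 0,
    .mul (.c (-1)) (.mul (.mul (.mul (.mul (.c 2) (.a)) (.add (.c 14) (.a))) (.pow (.P) 4)) (.c (-2))),
    .c 0⟩

/-- free value column 7 -/
def vf7 : VFz := ⟨⟨8, 0, 1, 1, 1⟩, [28586319075904625889280, -172938206460135275335680, 422984363184378988339200, -535033778205289317785600, 367812717464603788339200, -129289387944688235335680, 17877965323804145889280],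
    .mul (.c (-1)) (.mul (.mul (.add (.mul (.sub (.c (-14)) (.mul (.c 2) (.a))) (.P)) (.mul (.mul (.mul (.c 16) (.a)) (.add (.c 14) (.a))) (.s))) (.pow (.P) 3)) (.mul (.c (-2)) (.d))),
    .c 0,
    .mul (.c (-1)) (.mul (.mul (.mul (.mul (.c 2) (.a)) (.add (.c 14) (.a))) (.pow (.P) 4)) (.mul (.c (-2)) (.d))),
    .c 0⟩

/-- free value column 8 -/
def vf8 : VFz := ⟨⟨8, 0, 2, 0, 0⟩, [-9226722695902145889280, 80078221584405035335680, -243090079115962588339200, 355102197426409317785600, -270276337571861788339200, 102304475014632875335680, -14910759445794691277008],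
    .mul (.c (-1)) (.mul (.mul (.add (.mul (.sub (.c (-14)) (.mul (.c 2) (.a))) (.P)) (.mul (.mul (.mul (.c 16) (.a)) (.add (.c 14) (.a))) (.s))) (.pow (.P) 3)) (.c 2)),
    .c 0,
    .mul (.c (-1)) (.mul (.mul (.mul (.mul (.c 2) (.a)) (.add (.c 14) (.a))) (.pow (.P) 4)) (.c 2)),
    .c 0⟩

/-- free value column 9 -/
def vf9 : VFz := ⟨⟨8, 0, 2, 0, 1⟩, [28586319075904625889280, -172938206460135275335680, 422984363184378988339200, -535033778205289317785600, 367812717464603788339200, -129289387944688235335680, 17877965323804145889280],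
    .mul (.c (-1)) (.mul (.mul (.add (.mul (.sub (.c (-14)) (.mul (.c 2) (.a))) (.P)) (.mul (.mul (.mul (.c 16) (.a)) (.add (.c 14) (.a))) (.s))) (.pow (.P) 3)) (.mul (.c 2) (.d))),
    .c 0,
    .mul (.c (-1)) (.mul (.mul (.mul (.mul (.c 2) (.a)) (.add (.c 14) (.a))) (.pow (.P) 4)) (.mul (.c 2) (.d))),
    .c 0⟩

/-- free value column 10 -/
def vf10 : VFz := ⟨⟨8, 0, 2, 1, 0⟩, [-21439739306928469416960, 129703654845101456501760, -317238272388284241254400, 401275333653966988339200, -275859538098452841254400, 96967040958516176501760, -13408473992853109416960],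
    .mul (.c (-1)) (.mul (.mul (.add (.mul (.sub (.c (-14)) (.mul (.c 2) (.a))) (.P)) (.mul (.mul (.mul (.c 16) (.a)) (.add (.c 14) (.a))) (.s))) (.pow (.P) 3)) (.mul (.c (-2)) (.t))),
    .c 0,
    .mul (.c (-1)) (.mul (.mul (.mul (.mul (.c 2) (.a)) (.add (.c 14) (.a))) (.pow (.P) 4)) (.mul (.c (-2)) (.t))),
    .c 0⟩

/-- free value column 11 -/
def vf11 : VFz := ⟨⟨8, 0, 3, 0, 0⟩, [-7146579768976156472320, 43234551615033818833920, -105746090796094747084800, 133758444551322329446400, -91953179366150947084800, 32322346986172058833920, -4469491330951036472320],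
    .mul (.c (-1)) (.mul (.mul (.add (.mul (.sub (.c (-14)) (.mul (.c 2) (.a))) (.P)) (.mul (.mul (.mul (.c 16) (.a)) (.add (.c 14) (.a))) (.s))) (.pow (.P) 3)) (.mul (.c 6) (.t))),
    .c 0,
    .mul (.c (-1)) (.mul (.mul (.mul (.mul (.c 2) (.a)) (.add (.c 14) (.a))) (.pow (.P) 4)) (.mul (.c 6) (.t))),
    .c 0⟩

/-- free value column 12 -/
def vf12 : VFz := ⟨⟨8, 1, 0, 0, 0⟩, [-77414041234407009628160, 351830609063315337768960, -641043019588854744422400, 600653163374469792563200, -309583883384137944422400, 87210384051992457768960, -11625971794759228077248],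
    .c 0,
    .c 0,
    .c 0,
    .c 0⟩

/-- free value column 13 -/
def vf13 : VFz := ⟨⟨8, 1, 0, 0, 1⟩, [77389696948804099256320, -332221278623709715537920, 562508902904043888844800, -481580003633419585126400, 229022247197307888844800, -66481116383763475537920, 11383120077480637705408],
    .c 0,
    .c 0,
    .c 0,
    .c 0⟩

/-- free value column 14 -/
def vf14 : VFz := ⟨⟨8, 1, 0, 0, 2⟩, [24344285602910371840, -19609330439605622231040, 78534116684810855577600, -119073159741050207436800, 80561636186830055577600, -20729267668228982231040, 242851717278590371840],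
    .c 0,
    .mul (.c (-1)) (.mul (.mul (.mul (.add (.mul (.sub (.c (-14)) (.mul (.c 2) (.a))) (.P)) (.mul (.mul (.mul (.c 16) (.a)) (.add (.c 14) (.a))) (.s))) (.w)) (.pow (.P) 3)) (.c 2)),
    .c 0,
    .mul (.c (-1)) (.mul (.mul (.mul (.mul (.mul (.c 2) (.a)) (.add (.c 14) (.a))) (.w)) (.pow (.P) 4)) (.c 2))⟩

/-- free value column 15 -/
def vf15 : VFz := ⟨⟨8, 1, 1, 0, 0⟩, [-20217058796994847477760, -1019591020931715133440, 216381321076642087833600, -449597602374487050444800, 366270770196379687833600, -122974926874492995133440, 11135282382607654073152],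
    .c 0,
    .c 0,
    .c 0,
    .c 0⟩

/-- free value column 16 -/
def vf16 : VFz := ⟨⟨8, 1, 1, 0, 1⟩, [-57221326723015072522240, 359823987248223555133440, -868879954962235687833600, 1030433975087335050444800, -616083872231827687833600, 161791845963594435133440, -9766577707125472522240],
    .c 0,
    .c 0,
    .c 0,
    .c 0⟩

/-- free value column 17 -/
def vf17 : VFz := ⟨⟨8, 1, 1, 0, 2⟩, [0, 12635543275629120000000, -67078502388072000000000, 138889950402672000000000, -140332417535520000000000, 69122732631120000000000, -13237528187520000000000],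
    .c 0,
    .mul (.c (-1)) (.mul (.mul (.mul (.add (.mul (.sub (.c (-14)) (.mul (.c 2) (.a))) (.P)) (.mul (.mul (.mul (.c 16) (.a)) (.add (.c 14) (.a))) (.s))) (.w)) (.pow (.P) 3)) (.mul (.c 2) (.t))),
    .c 0,
    .mul (.c (-1)) (.mul (.mul (.mul (.mul (.mul (.c 2) (.a)) (.add (.c 14) (.a))) (.w)) (.pow (.P) 4)) (.mul (.c 2) (.t)))⟩

/-- free value column 18 -/
def vf18 : VFz := ⟨⟨8, 1, 1, 1, 0⟩, [28598491218706081075200, -170107328404308966451200, 395172919138712416128000, -455680407673142421504000, 267761118022498816128000, -70531289147682726451200, 4761862994923441075200],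
    .mul (.c (-1)) (.mul (.mul (.mul (.add (.mul (.sub (.c (-14)) (.mul (.c 2) (.a))) (.P)) (.mul (.mul (.mul (.c 16) (.a)) (.add (.c 14) (.a))) (.s))) (.w)) (.pow (.P) 3)) (.c (-2))),
    .c 0,
    .mul (.c (-1)) (.mul (.mul (.mul (.mul (.mul (.c 2) (.a)) (.add (.c 14) (.a))) (.w)) (.pow (.P) 4)) (.c (-2))),
    .c 0⟩

/-- free value column 19 -/
def vf19 : VFz := ⟨⟨8, 1, 1, 1, 1⟩, [0, -12635543275629120000000, 67078502388072000000000, -138889950402672000000000, 140332417535520000000000, -69122732631120000000000, 13237528187520000000000],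
    .mul (.c (-1)) (.mul (.mul (.mul (.add (.mul (.sub (.c (-14)) (.mul (.c 2) (.a))) (.P)) (.mul (.mul (.mul (.c 16) (.a)) (.add (.c 14) (.a))) (.s))) (.w)) (.pow (.P) 3)) (.mul (.c (-2)) (.d))),
    .c 0,
    .mul (.c (-1)) (.mul (.mul (.mul (.mul (.mul (.c 2) (.a)) (.add (.c 14) (.a))) (.w)) (.pow (.P) 4)) (.mul (.c (-2)) (.d))),
    .c 0⟩

/-- free value column 20 -/
def vf20 : VFz := ⟨⟨8, 1, 2, 0, 0⟩, [28598491218706081075200, -170107328404308966451200, 395172919138712416128000, -455680407673142421504000, 267761118022498816128000, -70531289147682726451200, 4761862994923441075200],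
    .mul (.c (-1)) (.mul (.mul (.mul (.add (.mul (.sub (.c (-14)) (.mul (.c 2) (.a))) (.P)) (.mul (.mul (.mul (.c 16) (.a)) (.add (.c 14) (.a))) (.s))) (.w)) (.pow (.P) 3)) (.c 2)),
    .c 0,
    .mul (.c (-1)) (.mul (.mul (.mul (.mul (.mul (.c 2) (.a)) (.add (.c 14) (.a))) (.w)) (.pow (.P) 4)) (.c 2)),
    .c 0⟩

/-- free value column 21 -/
def vf21 : VFz := ⟨⟨8, 1, 2, 0, 1⟩, [0, -12635543275629120000000, 67078502388072000000000, -138889950402672000000000, 140332417535520000000000, -69122732631120000000000, 13237528187520000000000],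
    .mul (.c (-1)) (.mul (.mul (.mul (.add (.mul (.sub (.c (-14)) (.mul (.c 2) (.a))) (.P)) (.mul (.mul (.mul (.c 16) (.a)) (.add (.c 14) (.a))) (.s))) (.w)) (.pow (.P) 3)) (.mul (.c 2) (.d))),
    .c 0,
    .mul (.c (-1)) (.mul (.mul (.mul (.mul (.mul (.c 2) (.a)) (.add (.c 14) (.a))) (.w)) (.pow (.P) 4)) (.mul (.c 2) (.d))),
    .c 0⟩

/-- free value column 22 -/
def vf22 : VFz := ⟨⟨8, 1, 2, 1, 0⟩, [0, 9476657456721840000000, -50308876791054000000000, 104167462802004000000000, -105249313151640000000000, 51842049473340000000000, -9928146140640000000000],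
    .mul (.c (-1)) (.mul (.mul (.mul (.add (.mul (.sub (.c (-14)) (.mul (.c 2) (.a))) (.P)) (.mul (.mul (.mul (.c 16) (.a)) (.add (.c 14) (.a))) (.s))) (.w)) (.pow (.P) 3)) (.mul (.c (-2)) (.t))),
    .c 0,
    .mul (.c (-1)) (.mul (.mul (.mul (.mul (.mul (.c 2) (.a)) (.add (.c 14) (.a))) (.w)) (.pow (.P) 4)) (.mul (.c (-2)) (.t))),
    .c 0⟩

/-- free value column 23 -/
def vf23 : VFz := ⟨⟨8, 1, 3, 0, 0⟩, [0, 3158885818907280000000, -16769625597018000000000, 34722487600668000000000, -35083104383880000000000, 17280683157780000000000, -3309382046880000000000],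
    .mul (.c (-1)) (.mul (.mul (.mul (.add (.mul (.sub (.c (-14)) (.mul (.c 2) (.a))) (.P)) (.mul (.mul (.mul (.c 16) (.a)) (.add (.c 14) (.a))) (.s))) (.w)) (.pow (.P) 3)) (.mul (.c 6) (.t))),
    .c 0,
    .mul (.c (-1)) (.mul (.mul (.mul (.mul (.mul (.c 2) (.a)) (.add (.c 14) (.a))) (.w)) (.pow (.P) 4)) (.mul (.c 6) (.t))),
    .c 0⟩

/-- free value column 24 -/
def vf24 : VFz := ⟨⟨8, 2, 0, 0, 0⟩, [38670504188799139256320, -146340658915734355537920, 209996728272061488844800, -152683836376296385126400, 81338426857839888844800, -44299732427411155537920, 13377987705786208480864],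
    .c 0,
    .c 0,
    .c 0,
    .c 0⟩

/-- free value column 25 -/
def vf25 : VFz := ⟨⟨8, 2, 0, 0, 1⟩, [48688571205820743680, -39539960792241004462080, 142515446359920911155200, -176212330880826814873600, 66345393481628111155200, 22118348471058835537920, -15372855334091779256320],
    .c 0,
    .c 0,
    .c 0,
    .c 0⟩

/-- free value column 26 -/
def vf26 : VFz := ⟨⟨8, 2, 0, 0, 2⟩, [0, 160649956514880000000, 7276393504850400000000, -30966994300636800000000, 47388939446016000000000, -31788441903758400000000, 7929279384324480000000],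
    .c 0,
    .mul (.c (-1)) (.mul (.mul (.mul (.add (.mul (.sub (.c (-14)) (.mul (.c 2) (.a))) (.P)) (.mul (.mul (.mul (.c 16) (.a)) (.add (.c 14) (.a))) (.s))) (.pow (.w) 2)) (.pow (.P) 3)) (.c 2)),
    .c 0,
    .mul (.c (-1)) (.mul (.mul (.mul (.mul (.mul (.c 2) (.a)) (.add (.c 14) (.a))) (.pow (.w) 2)) (.pow (.P) 4)) (.c 2))⟩

/-- free value column 27 -/
def vf27 : VFz := ⟨⟨8, 2, 1, 0, 0⟩, [-28635007647110446632960, 187182158256579159797760, -434523932507758299494400, 448883038900138532659200, -180668343427596699494400, -10122619669441640202240, 17982311441545393367040],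
    .c 0,
    .c 0,
    .c 0,
    .c 0⟩

/-- free value column 28 -/
def vf28 : VFz := ⟨⟨8, 2, 1, 0, 1⟩, [0, 24999631527306240000000, -142347536306640000000000, 308880228167884800000000, -321092578858262400000000, 159918736831418880000000, -30358345256124480000000],
    .c 0,
    .c 0,
    .c 0,
    .c 0⟩

/-- free value column 29 -/
def vf29 : VFz := ⟨⟨8, 2, 1, 0, 2⟩, [0, -24922444538880000000, -3181127739602400000000, 15416830619366400000000, -27175067552404800000000, 20951806119168960000000, -5987634943782240000000],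
    .c 0,
    .mul (.c (-1)) (.mul (.mul (.mul (.add (.mul (.sub (.c (-14)) (.mul (.c 2) (.a))) (.P)) (.mul (.mul (.mul (.c 16) (.a)) (.add (.c 14) (.a))) (.s))) (.pow (.w) 2)) (.pow (.P) 3)) (.mul (.c 2) (.t))),
    .c 0,
    .mul (.c (-1)) (.mul (.mul (.mul (.mul (.mul (.c 2) (.a)) (.add (.c 14) (.a))) (.pow (.w) 2)) (.pow (.P) 4)) (.mul (.c 2) (.t)))⟩

/-- free value column 30 -/
def vf30 : VFz := ⟨⟨8, 2, 1, 1, 0⟩, [0, -12580140741910560000000, 67535571400894800000000, -138956616933624000000000, 136851819706123200000000, -64065147463830240000000, 11214532935900000000000],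
    .mul (.c (-1)) (.mul (.mul (.mul (.add (.mul (.sub (.c (-14)) (.mul (.c 2) (.a))) (.P)) (.mul (.mul (.mul (.c 16) (.a)) (.add (.c 14) (.a))) (.s))) (.pow (.w) 2)) (.pow (.P) 3)) (.c (-2))),
    .c 0,
    .mul (.c (-1)) (.mul (.mul (.mul (.mul (.mul (.c 2) (.a)) (.add (.c 14) (.a))) (.pow (.w) 2)) (.pow (.P) 4)) (.c (-2))),
    .c 0⟩

/-- free value column 31 -/
def vf31 : VFz := ⟨⟨8, 2, 1, 1, 1⟩, [0, 24922444538880000000, 3181127739602400000000, -15416830619366400000000, 27175067552404800000000, -20951806119168960000000, 5987634943782240000000],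
    .mul (.c (-1)) (.mul (.mul (.mul (.add (.mul (.sub (.c (-14)) (.mul (.c 2) (.a))) (.P)) (.mul (.mul (.mul (.c 16) (.a)) (.add (.c 14) (.a))) (.s))) (.pow (.w) 2)) (.pow (.P) 3)) (.mul (.c (-2)) (.d))),
    .c 0,
    .mul (.c (-1)) (.mul (.mul (.mul (.mul (.mul (.c 2) (.a)) (.add (.c 14) (.a))) (.pow (.w) 2)) (.pow (.P) 4)) (.mul (.c (-2)) (.d))),
    .c 0⟩

/-- free value column 32 -/
def vf32 : VFz := ⟨⟨8, 2, 2, 0, 0⟩, [0, -12580140741910560000000, 67535571400894800000000, -138956616933624000000000, 136851819706123200000000, -64065147463830240000000, 11214532935900000000000],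
    .mul (.c (-1)) (.mul (.mul (.mul (.add (.mul (.sub (.c (-14)) (.mul (.c 2) (.a))) (.P)) (.mul (.mul (.mul (.c 16) (.a)) (.add (.c 14) (.a))) (.s))) (.pow (.w) 2)) (.pow (.P) 3)) (.c 2)),
    .c 0,
    .mul (.c (-1)) (.mul (.mul (.mul (.mul (.mul (.c 2) (.a)) (.add (.c 14) (.a))) (.pow (.w) 2)) (.pow (.P) 4)) (.c 2)),
    .c 0⟩

/-- free value column 33 -/
def vf33 : VFz := ⟨⟨8, 2, 2, 0, 1⟩, [0, 24922444538880000000, 3181127739602400000000, -15416830619366400000000, 27175067552404800000000, -20951806119168960000000, 5987634943782240000000],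
    .mul (.c (-1)) (.mul (.mul (.mul (.add (.mul (.sub (.c (-14)) (.mul (.c 2) (.a))) (.P)) (.mul (.mul (.mul (.c 16) (.a)) (.add (.c 14) (.a))) (.s))) (.pow (.w) 2)) (.pow (.P) 3)) (.mul (.c 2) (.d))),
    .c 0,
    .mul (.c (-1)) (.mul (.mul (.mul (.mul (.mul (.c 2) (.a)) (.add (.c 14) (.a))) (.pow (.w) 2)) (.pow (.P) 4)) (.mul (.c 2) (.d))),
    .c 0⟩

/-- free value column 34 -/
def vf34 : VFz := ⟨⟨8, 2, 2, 1, 0⟩, [0, -18691833404160000000, -2385845804701800000000, 11562622964524800000000, -20381300664303600000000, 15713854589376720000000, -4490726207836680000000],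
    .mul (.c (-1)) (.mul (.mul (.mul (.add (.mul (.sub (.c (-14)) (.mul (.c 2) (.a))) (.P)) (.mul (.mul (.mul (.c 16) (.a)) (.add (.c 14) (.a))) (.s))) (.pow (.w) 2)) (.pow (.P) 3)) (.mul (.c (-2)) (.t))),
    .c 0,
    .mul (.c (-1)) (.mul (.mul (.mul (.mul (.mul (.c 2) (.a)) (.add (.c 14) (.a))) (.pow (.w) 2)) (.pow (.P) 4)) (.mul (.c (-2)) (.t))),
    .c 0⟩

/-- free value column 35 -/
def vf35 : VFz := ⟨⟨8, 2, 3, 0, 0⟩, [0, -6230611134720000000, -795281934900600000000, 3854207654841600000000, -6793766888101200000000, 5237951529792240000000, -1496908735945560000000],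
    .mul (.c (-1)) (.mul (.mul (.mul (.add (.mul (.sub (.c (-14)) (.mul (.c 2) (.a))) (.P)) (.mul (.mul (.mul (.c 16) (.a)) (.add (.c 14) (.a))) (.s))) (.pow (.w) 2)) (.pow (.P) 3)) (.mul (.c 6) (.t))),
    .c 0,
    .mul (.c (-1)) (.mul (.mul (.mul (.mul (.mul (.c 2) (.a)) (.add (.c 14) (.a))) (.pow (.w) 2)) (.pow (.P) 4)) (.mul (.c 6) (.t))),
    .c 0⟩

/-- free value column 36 -/
def vf36 : VFz := ⟨⟨8, 3, 0, 0, 0⟩, [24344285602910371840, -19930630352635382231040, 63981329675110055577600, -57139171139776607436800, -14216242705201944422400, 42847616139287817768960, -15615707051370369628160],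
    .c 0,
    .c 0,
    .c 0,
    .c 0⟩

/-- free value column 37 -/
def vf37 : VFz := ⟨⟨8, 3, 0, 0, 1⟩, [0, 321299913029760000000, 14552787009700800000000, -61933988601273600000000, 94777878892032000000000, -63576883807516800000000, 15858558768648960000000],
    .c 0,
    .c 0,
    .c 0,
    .c 0⟩

/-- free value column 38 -/
def vf38 : VFz := ⟨⟨8, 3, 1, 0, 0⟩, [0, 12364088251677120000000, -75269033918568000000000, 169990277765212800000000, -180760161322742400000000, 90796004200298880000000, -17120817068604480000000],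
    .c 0,
    .c 0,
    .c 0,
    .c 0⟩

/-- free value column 39 -/
def vf39 : VFz := ⟨⟨8, 3, 1, 0, 1⟩, [0, -49844889077760000000, -6362255479204800000000, 30833661238732800000000, -54350135104809600000000, 41903612238337920000000, -11975269887564480000000],
    .c 0,
    .c 0,
    .c 0,
    .c 0⟩

/-- free value column 40 -/
def vf40 : VFz := ⟨⟨8, 3, 1, 1, 0⟩, [0, 24922444538880000000, 3181127739602400000000, -15416830619366400000000, 27175067552404800000000, -20951806119168960000000, 5987634943782240000000],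
    .mul (.c (-1)) (.mul (.mul (.mul (.add (.mul (.sub (.c (-14)) (.mul (.c 2) (.a))) (.P)) (.mul (.mul (.mul (.c 16) (.a)) (.add (.c 14) (.a))) (.s))) (.pow (.w) 3)) (.pow (.P) 3)) (.c (-2))),
    .c 0,
    .mul (.c (-1)) (.mul (.mul (.mul (.mul (.mul (.c 2) (.a)) (.add (.c 14) (.a))) (.pow (.w) 3)) (.pow (.P) 4)) (.c (-2))),
    .c 0⟩

/-- free value column 41 -/
def vf41 : VFz := ⟨⟨8, 3, 2, 0, 0⟩, [0, 24922444538880000000, 3181127739602400000000, -15416830619366400000000, 27175067552404800000000, -20951806119168960000000, 5987634943782240000000],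
    .mul (.c (-1)) (.mul (.mul (.mul (.add (.mul (.sub (.c (-14)) (.mul (.c 2) (.a))) (.P)) (.mul (.mul (.mul (.c 16) (.a)) (.add (.c 14) (.a))) (.s))) (.pow (.w) 3)) (.pow (.P) 3)) (.c 2)),
    .c 0,
    .mul (.c (-1)) (.mul (.mul (.mul (.mul (.mul (.c 2) (.a)) (.add (.c 14) (.a))) (.pow (.w) 3)) (.pow (.P) 4)) (.c 2)),
    .c 0⟩

/-- free value column 42 -/
def vf42 : VFz := ⟨⟨8, 4, 0, 0, 0⟩, [0, 160649956514880000000, 7276393504850400000000, -30966994300636800000000, 47388939446016000000000, -31788441903758400000000, 7929279384324480000000],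
    .c 0,
    .c 0,
    .c 0,
    .c 0⟩

/-- free value column 43 -/
def vf43 : VFz := ⟨⟨8, 4, 1, 0, 0⟩, [0, -24922444538880000000, -3181127739602400000000, 15416830619366400000000, -27175067552404800000000, 20951806119168960000000, -5987634943782240000000],
    .c 0,
    .c 0,
    .c 0,
    .c 0⟩

/-- free value column 44 -/
def vf44 : VFz := ⟨⟨9, 0, 0, 0, 0⟩, [-66503302550828640000000, 369540780168077280000000, -858441715587469440000000, 1073423800942617600000000, -772427702912594400000000, 314620539103493280000000, -65166097112519492250000, 4953697949223812250000],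
    .c 0,
    .c 0,
    .c 0,
    .c 0⟩

/-- free value column 45 -/
def vf45 : VFz := ⟨⟨9, 0, 0, 0, 1⟩, [133006605101657280000000, -739081560336154560000000, 1716883431174938880000000, -2146847601885235200000000, 1544855405825188800000000, -629241078206986560000000, 130332194225038984500000, -9907395898447624500000],
    .c 0,
    .c 0,
    .c 0,
    .c 0⟩

/-- free value column 46 -/
def vf46 : VFz := ⟨⟨9, 0, 0, 0, 2⟩, [-66503302550828640000000, 369540780168077280000000, -858441715587469440000000, 1073423800942617600000000, -772427702912594400000000, 314620539103493280000000, -65166097112519492250000, 4953697949223812250000],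
    .c 0,
    .mul (.c (-1)) (.mul (.mul (.add (.mul (.sub (.c (-14)) (.mul (.c 2) (.a))) (.P)) (.mul (.mul (.mul (.c 18) (.a)) (.add (.c 14) (.a))) (.s))) (.pow (.P) 2)) (.c 2)),
    .c 0,
    .mul (.c (-1)) (.mul (.mul (.mul (.mul (.c 2) (.a)) (.add (.c 14) (.a))) (.pow (.P) 3)) (.c 2))⟩

/-- free value column 47 -/
def vf47 : VFz := ⟨⟨9, 0, 1, 0, 0⟩, [-81146892148207200000000, 381231332298764640000000, -687494993644549440000000, 544941474140347200000000, -89280851645160000000000, -141236113238377920000000, 88664214401028535500000, -15678170163845815500000],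
    .c 0,
    .c 0,
    .c 0,
    .c 0⟩

/-- free value column 48 -/
def vf48 : VFz := ⟨⟨9, 0, 1, 0, 1⟩, [29287179194757120000000, -23381104261374720000000, -341893443885840000000000, 1056964653604540800000000, -1366293702534868800000000, 911713304683742400000000, -307660623027096055500000, 41263736226139255500000],
    .c 0,
    .c 0,
    .c 0,
    .c 0⟩

/-- free value column 49 -/
def vf49 : VFz := ⟨⟨9, 0, 1, 0, 2⟩, [51859712953450080000000, -357850228037389920000000, 1029388437530389440000000, -1601906127744888000000000, 1455574554180028800000000, -770477191445364480000000, 218996408626067520000000, -25585566062293440000000],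
    .c 0,
    .mul (.c (-1)) (.mul (.mul (.add (.mul (.sub (.c (-14)) (.mul (.c 2) (.a))) (.P)) (.mul (.mul (.mul (.c 18) (.a)) (.add (.c 14) (.a))) (.s))) (.pow (.P) 2)) (.mul (.c 2) (.t))),
    .c 0,
    .mul (.c (-1)) (.mul (.mul (.mul (.mul (.c 2) (.a)) (.add (.c 14) (.a))) (.pow (.P) 3)) (.mul (.c 2) (.t)))⟩

/-- free value column 50 -/
def vf50 : VFz := ⟨⟨9, 0, 1, 1, 0⟩, [440475229337885280000000, -2541186820543437360000000, 6089213380978919520000000, -7922732655370780800000000, 6107286930827619600000000, -2757503796690882960000000, 607873241854305133875000, -23108717087681533875000],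
    .mul (.c (-1)) (.mul (.mul (.add (.mul (.sub (.c (-14)) (.mul (.c 2) (.a))) (.P)) (.mul (.mul (.mul (.c 18) (.a)) (.add (.c 14) (.a))) (.s))) (.pow (.P) 2)) (.c (-2))),
    .c 0,
    .mul (.c (-1)) (.mul (.mul (.mul (.mul (.c 2) (.a)) (.add (.c 14) (.a))) (.pow (.P) 3)) (.c (-2))),
    .c 0⟩

/-- free value column 51 -/
def vf51 : VFz := ⟨⟨9, 0, 1, 1, 1⟩, [-72311016797794494110720, 730997155645254324664320, -2801606183969980051660800, 4650990875569217882214400, -4056205907203710211660800, 1949061466172460564664320, -443548688281475454110720, 25585566062293440000000],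
    .mul (.c (-1)) (.mul (.mul (.add (.mul (.sub (.c (-14)) (.mul (.c 2) (.a))) (.P)) (.mul (.mul (.mul (.c 18) (.a)) (.add (.c 14) (.a))) (.s))) (.pow (.P) 2)) (.mul (.c (-2)) (.d))),
    .c 0,
    .mul (.c (-1)) (.mul (.mul (.mul (.mul (.c 2) (.a)) (.add (.c 14) (.a))) (.pow (.P) 3)) (.mul (.c (-2)) (.d))),
    .c 0⟩

/-- free value column 52 -/
def vf52 : VFz := ⟨⟨9, 0, 1, 1, 2⟩, [-4157939865764160000000, -121209870452408640000000, 526188947728046400000000, -800738861409950400000000, 520741397381083200000000, -112983724627683840000000, -7840895191219440000000],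
    .mul (.c (-1)) (.mul (.mul (.add (.mul (.sub (.c (-14)) (.mul (.c 2) (.a))) (.P)) (.mul (.mul (.mul (.c 18) (.a)) (.add (.c 14) (.a))) (.s))) (.pow (.P) 2)) (.mul (.c (-2)) (.pow (.d) 2))),
    .mul (.c (-1)) (.mul (.mul (.add (.mul (.sub (.c (-14)) (.mul (.c 2) (.a))) (.P)) (.mul (.mul (.mul (.c 18) (.a)) (.add (.c 14) (.a))) (.s))) (.pow (.P) 2)) (.mul (.c 2) (.pow (.t) 2))),
    .mul (.c (-1)) (.mul (.mul (.mul (.mul (.c 2) (.a)) (.add (.c 14) (.a))) (.pow (.P) 3)) (.mul (.c (-2)) (.pow (.d) 2))),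
    .mul (.c (-1)) (.mul (.mul (.mul (.mul (.c 2) (.a)) (.add (.c 14) (.a))) (.pow (.P) 3)) (.mul (.c 2) (.pow (.t) 2)))⟩

/-- free value column 53 -/
def vf53 : VFz := ⟨⟨9, 0, 2, 0, 0⟩, [-411574985713342080000000, 1952607403731917520000000, -3836500326049517280000000, 4190866478003721600000000, -2927082730617990000000000, 1305202503648279600000000, -250728312097128466125000, -23108717087681533875000],
    .mul (.c (-1)) (.mul (.mul (.add (.mul (.sub (.c (-14)) (.mul (.c 2) (.a))) (.P)) (.mul (.mul (.mul (.c 18) (.a)) (.add (.c 14) (.a))) (.s))) (.pow (.P) 2)) (.c 2)),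
    .c 0,
    .mul (.c (-1)) (.mul (.mul (.mul (.mul (.c 2) (.a)) (.add (.c 14) (.a))) (.pow (.P) 3)) (.c 2)),
    .c 0⟩

/-- free value column 54 -/
def vf54 : VFz := ⟨⟨9, 0, 2, 0, 1⟩, [-14776649646049025889280, 469542782239160075335680, -1361926482002984428339200, 1755776825560359717785600, -937908790680680188339200, 43827815229003755335680, 36919451794218174110720, 25585566062293440000000],
    .mul (.c (-1)) (.mul (.mul (.add (.mul (.sub (.c (-14)) (.mul (.c 2) (.a))) (.P)) (.mul (.mul (.mul (.c 18) (.a)) (.add (.c 14) (.a))) (.s))) (.pow (.P) 2)) (.mul (.c 2) (.d))),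
    .c 0,
    .mul (.c (-1)) (.mul (.mul (.mul (.mul (.c 2) (.a)) (.add (.c 14) (.a))) (.pow (.P) 3)) (.mul (.c 2) (.d))),
    .c 0⟩

/-- free value column 55 -/
def vf55 : VFz := ⟨⟨9, 0, 2, 0, 2⟩, [-4157939865764160000000, -121209870452408640000000, 526188947728046400000000, -800738861409950400000000, 520741397381083200000000, -112983724627683840000000, -7840895191219440000000],
    .mul (.c (-1)) (.mul (.mul (.add (.mul (.sub (.c (-14)) (.mul (.c 2) (.a))) (.P)) (.mul (.mul (.mul (.c 18) (.a)) (.add (.c 14) (.a))) (.s))) (.pow (.P) 2)) (.mul (.c 2) (.pow (.d) 2))),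
    .mul (.c (-1)) (.mul (.mul (.add (.mul (.sub (.c (-14)) (.mul (.c 2) (.a))) (.P)) (.mul (.mul (.mul (.c 18) (.a)) (.add (.c 14) (.a))) (.s))) (.pow (.P) 2)) (.mul (.c 2) (.pow (.t) 2))),
    .mul (.c (-1)) (.mul (.mul (.mul (.mul (.c 2) (.a)) (.add (.c 14) (.a))) (.pow (.P) 3)) (.mul (.c 2) (.pow (.d) 2))),
    .mul (.c (-1)) (.mul (.mul (.mul (.mul (.c 2) (.a)) (.add (.c 14) (.a))) (.pow (.P) 3)) (.mul (.c 2) (.pow (.t) 2)))⟩

/-- free value column 56 -/
def vf56 : VFz := ⟨⟨9, 0, 2, 1, 0⟩, [145658938466362766824960, -1520896493385092320949760, 4899766062531969582374400, -6831560515330250936499200, 4055408407120119702374400, -503941915230885880949760, -225253673187556953175040, -19189174546720080000000],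
    .mul (.c (-1)) (.mul (.mul (.add (.mul (.sub (.c (-14)) (.mul (.c 2) (.a))) (.P)) (.mul (.mul (.mul (.c 18) (.a)) (.add (.c 14) (.a))) (.s))) (.pow (.P) 2)) (.mul (.c (-2)) (.t))),
    .c 0,
    .mul (.c (-1)) (.mul (.mul (.mul (.mul (.c 2) (.a)) (.add (.c 14) (.a))) (.pow (.P) 3)) (.mul (.c (-2)) (.t))),
    .c 0⟩

/-- free value column 57 -/
def vf57 : VFz := ⟨⟨9, 0, 2, 1, 1⟩, [-1913432147628120000000, 437688273448661760000000, -1576842876939405600000000, 1800423908872646400000000, -262162859503444200000000, -747211374914009040000000, 350008407832300560000000],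
    .mul (.c (-1)) (.mul (.mul (.add (.mul (.sub (.c (-14)) (.mul (.c 2) (.a))) (.P)) (.mul (.mul (.mul (.c 18) (.a)) (.add (.c 14) (.a))) (.s))) (.pow (.P) 2)) (.mul (.mul (.c (-2)) (.t)) (.d))),
    .c 0,
    .mul (.c (-1)) (.mul (.mul (.mul (.mul (.c 2) (.a)) (.add (.c 14) (.a))) (.pow (.P) 3)) (.mul (.mul (.c (-2)) (.t)) (.d))),
    .c 0⟩

/-- free value column 58 -/
def vf58 : VFz := ⟨⟨9, 0, 2, 2, 0⟩, [-3118454899323120000000, -90907402839306480000000, 394641710796034800000000, -600554146057462800000000, 390556048035812400000000, -84737793470762880000000, -5880671393414580000000],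
    .mul (.c (-1)) (.mul (.mul (.add (.mul (.sub (.c (-14)) (.mul (.c 2) (.a))) (.P)) (.mul (.mul (.mul (.c 18) (.a)) (.add (.c 14) (.a))) (.s))) (.pow (.P) 2)) (.add (.mul (.c 2) (.pow (.u) 2)) (.mul (.c (-4)) (.pow (.t) 2)))),
    .c 0,
    .mul (.c (-1)) (.mul (.mul (.mul (.mul (.c 2) (.a)) (.add (.c 14) (.a))) (.pow (.P) 3)) (.add (.mul (.c 2) (.pow (.u) 2)) (.mul (.c (-4)) (.pow (.t) 2)))),
    .c 0⟩

/-- free value column 59 -/
def vf59 : VFz := ⟨⟨9, 0, 3, 0, 0⟩, [-110430984975969326824960, 678206783538067840949760, -1765621834089394542374400, 2026698941945561336499200, -516868263415758102374400, -718470174725213959050240, 412886501048746713175040, -6396391515573360000000],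
    .mul (.c (-1)) (.mul (.mul (.add (.mul (.sub (.c (-14)) (.mul (.c 2) (.a))) (.P)) (.mul (.mul (.mul (.c 18) (.a)) (.add (.c 14) (.a))) (.s))) (.pow (.P) 2)) (.mul (.c 6) (.t))),
    .c 0,
    .mul (.c (-1)) (.mul (.mul (.mul (.mul (.c 2) (.a)) (.add (.c 14) (.a))) (.pow (.P) 3)) (.mul (.c 6) (.t))),
    .c 0⟩

/-- free value column 60 -/
def vf60 : VFz := ⟨⟨9, 0, 3, 0, 1⟩, [18545191610684760000000, 47151208360972800000000, -527912913972780000000000, 1402531536767155200000000, -1820802730020888600000000, 1199146273424744400000000, -318644827067422800000000],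
    .mul (.c (-1)) (.mul (.mul (.add (.mul (.sub (.c (-14)) (.mul (.c 2) (.a))) (.P)) (.mul (.mul (.mul (.c 18) (.a)) (.add (.c 14) (.a))) (.s))) (.pow (.P) 2)) (.mul (.mul (.c 6) (.t)) (.d))),
    .c 0,
    .mul (.c (-1)) (.mul (.mul (.mul (.mul (.c 2) (.a)) (.add (.c 14) (.a))) (.pow (.P) 3)) (.mul (.mul (.c 6) (.t)) (.d))),
    .c 0⟩

/-- free value column 61 -/
def vf61 : VFz := ⟨⟨9, 0, 3, 1, 0⟩, [-4157939865764160000000, -121209870452408640000000, 526188947728046400000000, -800738861409950400000000, 520741397381083200000000, -112983724627683840000000, -7840895191219440000000],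
    .mul (.c (-1)) (.mul (.mul (.add (.mul (.sub (.c (-14)) (.mul (.c 2) (.a))) (.P)) (.mul (.mul (.mul (.c 18) (.a)) (.add (.c 14) (.a))) (.s))) (.pow (.P) 2)) (.mul (.c (-2)) (.pow (.u) 2))),
    .c 0,
    .mul (.c (-1)) (.mul (.mul (.mul (.mul (.c 2) (.a)) (.add (.c 14) (.a))) (.pow (.P) 3)) (.mul (.c (-2)) (.pow (.u) 2))),
    .c 0⟩

/-- free value column 62 -/
def vf62 : VFz := ⟨⟨9, 0, 4, 0, 0⟩, [-1039484966441040000000, -30302467613102160000000, 131547236932011600000000, -200184715352487600000000, 130185349345270800000000, -28245931156920960000000, -1960223797804860000000],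
    .mul (.c (-1)) (.mul (.mul (.add (.mul (.sub (.c (-14)) (.mul (.c 2) (.a))) (.P)) (.mul (.mul (.mul (.c 18) (.a)) (.add (.c 14) (.a))) (.s))) (.pow (.P) 2)) (.add (.mul (.c 2) (.pow (.u) 2)) (.mul (.c 12) (.pow (.t) 2)))),
    .c 0,
    .mul (.c (-1)) (.mul (.mul (.mul (.mul (.c 2) (.a)) (.add (.c 14) (.a))) (.pow (.P) 3)) (.add (.mul (.c 2) (.pow (.u) 2)) (.mul (.c 12) (.pow (.t) 2)))),
    .c 0⟩

/-- free value column 63 -/
def vf63 : VFz := ⟨⟨9, 1, 0, 0, 0⟩, [133006605101657280000000, -739081560336154560000000, 1716883431174938880000000, -2146847601885235200000000, 1544855405825188800000000, -629241078206986560000000, 130332194225038984500000, -9907395898447624500000],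
    .c 0,
    .c 0,
    .c 0,
    .c 0⟩

/-- free value column 64 -/
def vf64 : VFz := ⟨⟨9, 1, 0, 0, 1⟩, [-133006605101657280000000, 739081560336154560000000, -1716883431174938880000000, 2146847601885235200000000, -1544855405825188800000000, 629241078206986560000000, -130332194225038984500000, 9907395898447624500000],
    .c 0,
    .c 0,
    .c 0,
    .c 0⟩

/-- free value column 65 -/
def vf65 : VFz := ⟨⟨9, 1, 1, 0, 0⟩, [29287179194757120000000, -23381104261374720000000, -341893443885840000000000, 1056964653604540800000000, -1366293702534868800000000, 911713304683742400000000, -307660623027096055500000, 41263736226139255500000],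
    .c 0,
    .c 0,
    .c 0,
    .c 0⟩

/-- free value column 66 -/
def vf66 : VFz := ⟨⟨9, 1, 1, 0, 1⟩, [103719425906900160000000, -715700456074779840000000, 2058776875060778880000000, -3203812255489776000000000, 2911149108360057600000000, -1540954382890728960000000, 437992817252135040000000, -51171132124586880000000],
    .c 0,
    .c 0,
    .c 0,
    .c 0⟩

/-- free value column 67 -/
def vf67 : VFz := ⟨⟨9, 1, 1, 1, 0⟩, [-40824311630317559429120, 267360826041596876574720, -778632638436521631436800, 985332114465573588582400, -725407878482472591436800, 496028587380214316574720, -232667163687284999429120, 25585566062293440000000],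
    .mul (.c (-1)) (.mul (.mul (.mul (.add (.mul (.sub (.c (-14)) (.mul (.c 2) (.a))) (.P)) (.mul (.mul (.mul (.c 18) (.a)) (.add (.c 14) (.a))) (.s))) (.w)) (.pow (.P) 2)) (.c (-2))),
    .c 0,
    .mul (.c (-1)) (.mul (.mul (.mul (.mul (.mul (.c 2) (.a)) (.add (.c 14) (.a))) (.w)) (.pow (.P) 3)) (.c (-2))),
    .c 0⟩

/-- free value column 68 -/
def vf68 : VFz := ⟨⟨9, 1, 1, 1, 1⟩, [-8315879731528320000000, -249348021696779040000000, 1022080830478495200000000, -1876049035324027200000000, 1799360155524607200000000, -980390374706040480000000, 273511472191599600000000],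
    .mul (.c (-1)) (.mul (.mul (.mul (.add (.mul (.sub (.c (-14)) (.mul (.c 2) (.a))) (.P)) (.mul (.mul (.mul (.c 18) (.a)) (.add (.c 14) (.a))) (.s))) (.w)) (.pow (.P) 2)) (.mul (.c (-2)) (.d))),
    .c 0,
    .mul (.c (-1)) (.mul (.mul (.mul (.mul (.mul (.c 2) (.a)) (.add (.c 14) (.a))) (.w)) (.pow (.P) 3)) (.mul (.c (-2)) (.d))),
    .c 0⟩

/-- free value column 69 -/
def vf69 : VFz := ⟨⟨9, 1, 1, 1, 2⟩, [0, 19088029194968160000000, 33807662745922800000000, -350304365641910400000000, 655935091918268400000000, -491584655223879840000000, 133062507949417200000000],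
    .mul (.c (-1)) (.mul (.mul (.mul (.add (.mul (.sub (.c (-14)) (.mul (.c 2) (.a))) (.P)) (.mul (.mul (.mul (.c 18) (.a)) (.add (.c 14) (.a))) (.s))) (.w)) (.pow (.P) 2)) (.mul (.c (-2)) (.pow (.d) 2))),
    .mul (.c (-1)) (.mul (.mul (.mul (.add (.mul (.sub (.c (-14)) (.mul (.c 2) (.a))) (.P)) (.mul (.mul (.mul (.c 18) (.a)) (.add (.c 14) (.a))) (.s))) (.w)) (.pow (.P) 2)) (.mul (.c 2) (.pow (.t) 2))),
    .mul (.c (-1)) (.mul (.mul (.mul (.mul (.mul (.c 2) (.a)) (.add (.c 14) (.a))) (.w)) (.pow (.P) 3)) (.mul (.c (-2)) (.pow (.d) 2))),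
    .mul (.c (-1)) (.mul (.mul (.mul (.mul (.mul (.c 2) (.a)) (.add (.c 14) (.a))) (.w)) (.pow (.P) 3)) (.mul (.c 2) (.pow (.t) 2)))⟩

/-- free value column 70 -/
def vf70 : VFz := ⟨⟨9, 1, 2, 0, 0⟩, [-46263354813525960570880, 971355170232753843425280, -3317284702044597248563200, 4720826855380183211417600, -2956836635565381008563200, 513691383573490323425280, 92162943098862119429120, 25585566062293440000000],
    .mul (.c (-1)) (.mul (.mul (.mul (.add (.mul (.sub (.c (-14)) (.mul (.c 2) (.a))) (.P)) (.mul (.mul (.mul (.c 18) (.a)) (.add (.c 14) (.a))) (.s))) (.w)) (.pow (.P) 2)) (.c 2)),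
    .c 0,
    .mul (.c (-1)) (.mul (.mul (.mul (.mul (.mul (.c 2) (.a)) (.add (.c 14) (.a))) (.w)) (.pow (.P) 3)) (.c 2)),
    .c 0⟩

/-- free value column 71 -/
def vf71 : VFz := ⟨⟨9, 1, 2, 0, 1⟩, [-8315879731528320000000, -311843576892728160000000, 947444309449999200000000, 74311052251867200000000, -2340134933673348000000000, 2494794097090824480000000, -837125084754146160000000],
    .mul (.c (-1)) (.mul (.mul (.mul (.add (.mul (.sub (.c (-14)) (.mul (.c 2) (.a))) (.P)) (.mul (.mul (.mul (.c 18) (.a)) (.add (.c 14) (.a))) (.s))) (.w)) (.pow (.P) 2)) (.mul (.c 2) (.d))),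
    .c 0,
    .mul (.c (-1)) (.mul (.mul (.mul (.mul (.mul (.c 2) (.a)) (.add (.c 14) (.a))) (.w)) (.pow (.P) 3)) (.mul (.c 2) (.d))),
    .c 0⟩

/-- free value column 72 -/
def vf72 : VFz := ⟨⟨9, 1, 2, 0, 2⟩, [0, 19088029194968160000000, 33807662745922800000000, -350304365641910400000000, 655935091918268400000000, -491584655223879840000000, 133062507949417200000000],
    .mul (.c (-1)) (.mul (.mul (.mul (.add (.mul (.sub (.c (-14)) (.mul (.c 2) (.a))) (.P)) (.mul (.mul (.mul (.c 18) (.a)) (.add (.c 14) (.a))) (.s))) (.w)) (.pow (.P) 2)) (.mul (.c 2) (.pow (.d) 2))),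
    .mul (.c (-1)) (.mul (.mul (.mul (.add (.mul (.sub (.c (-14)) (.mul (.c 2) (.a))) (.P)) (.mul (.mul (.mul (.c 18) (.a)) (.add (.c 14) (.a))) (.s))) (.w)) (.pow (.P) 2)) (.mul (.c 2) (.pow (.t) 2))),
    .mul (.c (-1)) (.mul (.mul (.mul (.mul (.mul (.c 2) (.a)) (.add (.c 14) (.a))) (.w)) (.pow (.P) 3)) (.mul (.c 2) (.pow (.d) 2))),
    .mul (.c (-1)) (.mul (.mul (.mul (.mul (.mul (.c 2) (.a)) (.add (.c 14) (.a))) (.w)) (.pow (.P) 3)) (.mul (.c 2) (.pow (.t) 2)))⟩

/-- free value column 73 -/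
def vf73 : VFz := ⟨⟨9, 1, 2, 1, 0⟩, [12473819597292480000000, 331596720045617040000000, -793350237509751600000000, -800288465351407200000000, 3767025431564413200000000, -3693124364615295120000000, 1175663696150028960000000],
    .mul (.c (-1)) (.mul (.mul (.mul (.add (.mul (.sub (.c (-14)) (.mul (.c 2) (.a))) (.P)) (.mul (.mul (.mul (.c 18) (.a)) (.add (.c 14) (.a))) (.s))) (.w)) (.pow (.P) 2)) (.mul (.c (-2)) (.t))),
    .c 0,
    .mul (.c (-1)) (.mul (.mul (.mul (.mul (.mul (.c 2) (.a)) (.add (.c 14) (.a))) (.w)) (.pow (.P) 3)) (.mul (.c (-2)) (.t))),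
    .c 0⟩

/-- free value column 74 -/
def vf74 : VFz := ⟨⟨9, 1, 2, 1, 1⟩, [0, -45093288164697360000000, -227585699269185600000000, 1469775546064677600000000, -2602362207034321200000000, 1933721050244855760000000, -528400671013867680000000],
    .mul (.c (-1)) (.mul (.mul (.mul (.add (.mul (.sub (.c (-14)) (.mul (.c 2) (.a))) (.P)) (.mul (.mul (.mul (.c 18) (.a)) (.add (.c 14) (.a))) (.s))) (.w)) (.pow (.P) 2)) (.mul (.mul (.c (-2)) (.t)) (.d))),
    .c 0,
    .mul (.c (-1)) (.mul (.mul (.mul (.mul (.mul (.c 2) (.a)) (.add (.c 14) (.a))) (.w)) (.pow (.P) 3)) (.mul (.mul (.c (-2)) (.t)) (.d))),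
    .c 0⟩

/-- free value column 75 -/
def vf75 : VFz := ⟨⟨9, 1, 2, 2, 0⟩, [0, 14316021896226120000000, 25355747059442100000000, -262728274231432800000000, 491951318938701300000000, -368688491417909880000000, 99796880962062900000000],
    .mul (.c (-1)) (.mul (.mul (.mul (.add (.mul (.sub (.c (-14)) (.mul (.c 2) (.a))) (.P)) (.mul (.mul (.mul (.c 18) (.a)) (.add (.c 14) (.a))) (.s))) (.w)) (.pow (.P) 2)) (.add (.mul (.c 2) (.pow (.u) 2)) (.mul (.c (-4)) (.pow (.t) 2)))),
    .c 0,
    .mul (.c (-1)) (.mul (.mul (.mul (.mul (.mul (.c 2) (.a)) (.add (.c 14) (.a))) (.w)) (.pow (.P) 3)) (.add (.mul (.c 2) (.pow (.u) 2)) (.mul (.c (-4)) (.pow (.t) 2)))),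
    .c 0⟩

/-- free value column 76 -/
def vf76 : VFz := ⟨⟨9, 1, 3, 0, 0⟩, [4157939865764160000000, 229594878543890160000000, -1176174902418742800000000, 2602026448423567200000000, -3226250653415672400000000, 2178720642230511120000000, -612050083587482400000000],
    .mul (.c (-1)) (.mul (.mul (.mul (.add (.mul (.sub (.c (-14)) (.mul (.c 2) (.a))) (.P)) (.mul (.mul (.mul (.c 18) (.a)) (.add (.c 14) (.a))) (.s))) (.w)) (.pow (.P) 2)) (.mul (.c 6) (.t))),
    .c 0,
    .mul (.c (-1)) (.mul (.mul (.mul (.mul (.mul (.c 2) (.a)) (.add (.c 14) (.a))) (.w)) (.pow (.P) 3)) (.mul (.c 6) (.t))),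
    .c 0⟩

/-- free value column 77 -/
def vf77 : VFz := ⟨⟨9, 1, 3, 0, 1⟩, [0, -31258828615175280000000, 92355048285494400000000, -68558083497036000000000, -21378160638752400000000, 32617570650663600000000, -3849360783801120000000],
    .mul (.c (-1)) (.mul (.mul (.mul (.add (.mul (.sub (.c (-14)) (.mul (.c 2) (.a))) (.P)) (.mul (.mul (.mul (.c 18) (.a)) (.add (.c 14) (.a))) (.s))) (.w)) (.pow (.P) 2)) (.mul (.mul (.c 6) (.t)) (.d))),
    .c 0,
    .mul (.c (-1)) (.mul (.mul (.mul (.mul (.mul (.c 2) (.a)) (.add (.c 14) (.a))) (.w)) (.pow (.P) 3)) (.mul (.mul (.c 6) (.t)) (.d))),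
    .c 0⟩

/-- free value column 78 -/
def vf78 : VFz := ⟨⟨9, 1, 3, 1, 0⟩, [0, 19088029194968160000000, 33807662745922800000000, -350304365641910400000000, 655935091918268400000000, -491584655223879840000000, 133062507949417200000000],
    .mul (.c (-1)) (.mul (.mul (.mul (.add (.mul (.sub (.c (-14)) (.mul (.c 2) (.a))) (.P)) (.mul (.mul (.mul (.c 18) (.a)) (.add (.c 14) (.a))) (.s))) (.w)) (.pow (.P) 2)) (.mul (.c (-2)) (.pow (.u) 2))),
    .c 0,
    .mul (.c (-1)) (.mul (.mul (.mul (.mul (.mul (.c 2) (.a)) (.add (.c 14) (.a))) (.w)) (.pow (.P) 3)) (.mul (.c (-2)) (.pow (.u) 2))),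
    .c 0⟩

/-- free value column 79 -/
def vf79 : VFz := ⟨⟨9, 1, 4, 0, 0⟩, [0, 4772007298742040000000, 8451915686480700000000, -87576091410477600000000, 163983772979567100000000, -122896163805969960000000, 33265626987354300000000],
    .mul (.c (-1)) (.mul (.mul (.mul (.add (.mul (.sub (.c (-14)) (.mul (.c 2) (.a))) (.P)) (.mul (.mul (.mul (.c 18) (.a)) (.add (.c 14) (.a))) (.s))) (.w)) (.pow (.P) 2)) (.add (.mul (.c 2) (.pow (.u) 2)) (.mul (.c 12) (.pow (.t) 2)))),
    .c 0,
    .mul (.c (-1)) (.mul (.mul (.mul (.mul (.mul (.c 2) (.a)) (.add (.c 14) (.a))) (.w)) (.pow (.P) 3)) (.add (.mul (.c 2) (.pow (.u) 2)) (.mul (.c 12) (.pow (.t) 2)))),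
    .c 0⟩

/-- free value column 80 -/
def vf80 : VFz := ⟨⟨9, 2, 0, 0, 0⟩, [-66503302550828640000000, 369540780168077280000000, -858441715587469440000000, 1073423800942617600000000, -772427702912594400000000, 314620539103493280000000, -65166097112519492250000, 4953697949223812250000],
    .c 0,
    .c 0,
    .c 0,
    .c 0⟩

/-- free value column 81 -/
def vf81 : VFz := ⟨⟨9, 2, 1, 0, 0⟩, [51859712953450080000000, -357850228037389920000000, 1029388437530389440000000, -1601906127744888000000000, 1455574554180028800000000, -770477191445364480000000, 218996408626067520000000, -25585566062293440000000],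
    .c 0,
    .c 0,
    .c 0,
    .c 0⟩

/-- free value column 82 -/
def vf82 : VFz := ⟨⟨9, 2, 1, 1, 0⟩, [-4157939865764160000000, -138134335053687840000000, 595005896482603200000000, -932761377777700800000000, 534982219052324400000000, -19198047874592160000000, -42272225224553520000000],
    .mul (.c (-1)) (.mul (.mul (.mul (.add (.mul (.sub (.c (-14)) (.mul (.c 2) (.a))) (.P)) (.mul (.mul (.mul (.c 18) (.a)) (.add (.c 14) (.a))) (.s))) (.pow (.w) 2)) (.pow (.P) 2)) (.c (-2))),
    .c 0,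
    .mul (.c (-1)) (.mul (.mul (.mul (.mul (.mul (.c 2) (.a)) (.add (.c 14) (.a))) (.pow (.w) 2)) (.pow (.P) 3)) (.c (-2))),
    .c 0⟩

/-- free value column 83 -/
def vf83 : VFz := ⟨⟨9, 2, 1, 1, 1⟩, [0, 44479523818689120000000, 985801395826800000000, -187167961762790400000000, -14580613040011200000000, 370264433389310880000000, -213941544310201680000000],
    .mul (.c (-1)) (.mul (.mul (.mul (.add (.mul (.sub (.c (-14)) (.mul (.c 2) (.a))) (.P)) (.mul (.mul (.mul (.c 18) (.a)) (.add (.c 14) (.a))) (.s))) (.pow (.w) 2)) (.pow (.P) 2)) (.mul (.c (-2)) (.d))),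
    .c 0,
    .mul (.c (-1)) (.mul (.mul (.mul (.mul (.mul (.c 2) (.a)) (.add (.c 14) (.a))) (.pow (.w) 2)) (.pow (.P) 3)) (.mul (.c (-2)) (.d))),
    .c 0⟩

/-- free value column 84 -/
def vf84 : VFz := ⟨⟨9, 2, 1, 1, 2⟩, [0, -813298911455520000000, -28233231749881200000000, 132560385468134400000000, -220291309581688800000000, 159882079061053440000000, -43104156738279840000000],
    .mul (.c (-1)) (.mul (.mul (.mul (.add (.mul (.sub (.c (-14)) (.mul (.c 2) (.a))) (.P)) (.mul (.mul (.mul (.c 18) (.a)) (.add (.c 14) (.a))) (.s))) (.pow (.w) 2)) (.pow (.P) 2)) (.mul (.c (-2)) (.pow (.d) 2))),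
    .mul (.c (-1)) (.mul (.mul (.mul (.add (.mul (.sub (.c (-14)) (.mul (.c 2) (.a))) (.P)) (.mul (.mul (.mul (.c 18) (.a)) (.add (.c 14) (.a))) (.s))) (.pow (.w) 2)) (.pow (.P) 2)) (.mul (.c 2) (.pow (.t) 2))),
    .mul (.c (-1)) (.mul (.mul (.mul (.mul (.mul (.c 2) (.a)) (.add (.c 14) (.a))) (.pow (.w) 2)) (.pow (.P) 3)) (.mul (.c (-2)) (.pow (.d) 2))),
    .mul (.c (-1)) (.mul (.mul (.mul (.mul (.mul (.c 2) (.a)) (.add (.c 14) (.a))) (.pow (.w) 2)) (.pow (.P) 3)) (.mul (.c 2) (.pow (.t) 2)))⟩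

/-- free value column 85 -/
def vf85 : VFz := ⟨⟨9, 2, 2, 0, 0⟩, [-4157939865764160000000, -182264120453913120000000, 265674884490036000000000, 997621888461710400000000, -2557822411126609200000000, 2079333377636850720000000, -591867910432113840000000],
    .mul (.c (-1)) (.mul (.mul (.mul (.add (.mul (.sub (.c (-14)) (.mul (.c 2) (.a))) (.P)) (.mul (.mul (.mul (.c 18) (.a)) (.add (.c 14) (.a))) (.s))) (.pow (.w) 2)) (.pow (.P) 2)) (.c 2)),
    .c 0,
    .mul (.c (-1)) (.mul (.mul (.mul (.mul (.mul (.c 2) (.a)) (.add (.c 14) (.a))) (.pow (.w) 2)) (.pow (.P) 3)) (.c 2)),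
    .c 0⟩

/-- free value column 86 -/
def vf86 : VFz := ⟨⟨9, 2, 2, 0, 1⟩, [0, 35125788607005600000000, 247177776587389200000000, -1744291042677388800000000, 3519486219039840000000000, -2976131370529044000000000, 918608203060989840000000],
    .mul (.c (-1)) (.mul (.mul (.mul (.add (.mul (.sub (.c (-14)) (.mul (.c 2) (.a))) (.P)) (.mul (.mul (.mul (.c 18) (.a)) (.add (.c 14) (.a))) (.s))) (.pow (.w) 2)) (.pow (.P) 2)) (.mul (.c 2) (.d))),
    .c 0,
    .mul (.c (-1)) (.mul (.mul (.mul (.mul (.mul (.c 2) (.a)) (.add (.c 14) (.a))) (.pow (.w) 2)) (.pow (.P) 3)) (.mul (.c 2) (.d))),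
    .c 0⟩

/-- free value column 87 -/
def vf87 : VFz := ⟨⟨9, 2, 2, 0, 2⟩, [0, -813298911455520000000, -28233231749881200000000, 132560385468134400000000, -220291309581688800000000, 159882079061053440000000, -43104156738279840000000],
    .mul (.c (-1)) (.mul (.mul (.mul (.add (.mul (.sub (.c (-14)) (.mul (.c 2) (.a))) (.P)) (.mul (.mul (.mul (.c 18) (.a)) (.add (.c 14) (.a))) (.s))) (.pow (.w) 2)) (.pow (.P) 2)) (.mul (.c 2) (.pow (.d) 2))),
    .mul (.c (-1)) (.mul (.mul (.mul (.add (.mul (.sub (.c (-14)) (.mul (.c 2) (.a))) (.P)) (.mul (.mul (.mul (.c 18) (.a)) (.add (.c 14) (.a))) (.s))) (.pow (.w) 2)) (.pow (.P) 2)) (.mul (.c 2) (.pow (.t) 2))),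
    .mul (.c (-1)) (.mul (.mul (.mul (.mul (.mul (.c 2) (.a)) (.add (.c 14) (.a))) (.pow (.w) 2)) (.pow (.P) 3)) (.mul (.c 2) (.pow (.d) 2))),
    .mul (.c (-1)) (.mul (.mul (.mul (.mul (.mul (.c 2) (.a)) (.add (.c 14) (.a))) (.pow (.w) 2)) (.pow (.P) 3)) (.mul (.c 2) (.pow (.t) 2)))⟩

/-- free value column 88 -/
def vf88 : VFz := ⟨⟨9, 2, 2, 1, 0⟩, [0, -59106847538657520000000, -203091098849881200000000, 1438156593418910400000000, -2506462865396922600000000, 1806160497068511360000000, -475657206236304120000000],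
    .mul (.c (-1)) (.mul (.mul (.mul (.add (.mul (.sub (.c (-14)) (.mul (.c 2) (.a))) (.P)) (.mul (.mul (.mul (.c 18) (.a)) (.add (.c 14) (.a))) (.s))) (.pow (.w) 2)) (.pow (.P) 2)) (.mul (.c (-2)) (.t))),
    .c 0,
    .mul (.c (-1)) (.mul (.mul (.mul (.mul (.mul (.c 2) (.a)) (.add (.c 14) (.a))) (.pow (.w) 2)) (.pow (.P) 3)) (.mul (.c (-2)) (.t))),
    .c 0⟩

/-- free value column 89 -/
def vf89 : VFz := ⟨⟨9, 2, 2, 1, 1⟩, [0, 1747595686233600000000, 95009986169998200000000, -437843595123648000000000, 726964796092651200000000, -528192909622067760000000, 142326287452606320000000],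
    .mul (.c (-1)) (.mul (.mul (.mul (.add (.mul (.sub (.c (-14)) (.mul (.c 2) (.a))) (.P)) (.mul (.mul (.mul (.c 18) (.a)) (.add (.c 14) (.a))) (.s))) (.pow (.w) 2)) (.pow (.P) 2)) (.mul (.mul (.c (-2)) (.t)) (.d))),
    .c 0,
    .mul (.c (-1)) (.mul (.mul (.mul (.mul (.mul (.c 2) (.a)) (.add (.c 14) (.a))) (.pow (.w) 2)) (.pow (.P) 3)) (.mul (.mul (.c (-2)) (.t)) (.d))),
    .c 0⟩

/-- free value column 90 -/
def vf90 : VFz := ⟨⟨9, 2, 2, 2, 0⟩, [0, -609974183591640000000, -21174923812410900000000, 99420289101100800000000, -165218482186266600000000, 119911559295790080000000, -32328117553709880000000],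
    .mul (.c (-1)) (.mul (.mul (.mul (.add (.mul (.sub (.c (-14)) (.mul (.c 2) (.a))) (.P)) (.mul (.mul (.mul (.c 18) (.a)) (.add (.c 14) (.a))) (.s))) (.pow (.w) 2)) (.pow (.P) 2)) (.add (.mul (.c 2) (.pow (.u) 2)) (.mul (.c (-4)) (.pow (.t) 2)))),
    .c 0,
    .mul (.c (-1)) (.mul (.mul (.mul (.mul (.mul (.c 2) (.a)) (.add (.c 14) (.a))) (.pow (.w) 2)) (.pow (.P) 3)) (.add (.mul (.c 2) (.pow (.u) 2)) (.mul (.c (-4)) (.pow (.t) 2)))),
    .c 0⟩

/-- free value column 91 -/
def vf91 : VFz := ⟨⟨9, 2, 3, 0, 0⟩, [0, -20498464887037200000000, -45072479133334800000000, 493302411021268800000000, -998442740602906200000000, 799706440071221760000000, -229009452514484040000000],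
    .mul (.c (-1)) (.mul (.mul (.mul (.add (.mul (.sub (.c (-14)) (.mul (.c 2) (.a))) (.P)) (.mul (.mul (.mul (.c 18) (.a)) (.add (.c 14) (.a))) (.s))) (.pow (.w) 2)) (.pow (.P) 2)) (.mul (.c 6) (.t))),
    .c 0,
    .mul (.c (-1)) (.mul (.mul (.mul (.mul (.mul (.c 2) (.a)) (.add (.c 14) (.a))) (.pow (.w) 2)) (.pow (.P) 3)) (.mul (.c 6) (.t))),
    .c 0⟩

/-- free value column 92 -/
def vf92 : VFz := ⟨⟨9, 2, 3, 0, 1⟩, [0, 1505599959588480000000, 17922940829526600000000, -92397946748889600000000, 154200442234104000000000, -111335406622146000000000, 30090339500513040000000],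
    .mul (.c (-1)) (.mul (.mul (.mul (.add (.mul (.sub (.c (-14)) (.mul (.c 2) (.a))) (.P)) (.mul (.mul (.mul (.c 18) (.a)) (.add (.c 14) (.a))) (.s))) (.pow (.w) 2)) (.pow (.P) 2)) (.mul (.mul (.c 6) (.t)) (.d))),
    .c 0,
    .mul (.c (-1)) (.mul (.mul (.mul (.mul (.mul (.c 2) (.a)) (.add (.c 14) (.a))) (.pow (.w) 2)) (.pow (.P) 3)) (.mul (.mul (.c 6) (.t)) (.d))),
    .c 0⟩

/-- free value column 93 -/
def vf93 : VFz := ⟨⟨9, 2, 3, 1, 0⟩, [0, -813298911455520000000, -28233231749881200000000, 132560385468134400000000, -220291309581688800000000, 159882079061053440000000, -43104156738279840000000],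
    .mul (.c (-1)) (.mul (.mul (.mul (.add (.mul (.sub (.c (-14)) (.mul (.c 2) (.a))) (.P)) (.mul (.mul (.mul (.c 18) (.a)) (.add (.c 14) (.a))) (.s))) (.pow (.w) 2)) (.pow (.P) 2)) (.mul (.c (-2)) (.pow (.u) 2))),
    .c 0,
    .mul (.c (-1)) (.mul (.mul (.mul (.mul (.mul (.c 2) (.a)) (.add (.c 14) (.a))) (.pow (.w) 2)) (.pow (.P) 3)) (.mul (.c (-2)) (.pow (.u) 2))),
    .c 0⟩

/-- free value column 94 -/
def vf94 : VFz := ⟨⟨9, 2, 4, 0, 0⟩, [0, -203324727863880000000, -7058307937470300000000, 33140096367033600000000, -55072827395422200000000, 39970519765263360000000, -10776039184569960000000],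
    .mul (.c (-1)) (.mul (.mul (.mul (.add (.mul (.sub (.c (-14)) (.mul (.c 2) (.a))) (.P)) (.mul (.mul (.mul (.c 18) (.a)) (.add (.c 14) (.a))) (.s))) (.pow (.w) 2)) (.pow (.P) 2)) (.add (.mul (.c 2) (.pow (.u) 2)) (.mul (.c 12) (.pow (.t) 2)))),
    .c 0,
    .mul (.c (-1)) (.mul (.mul (.mul (.mul (.mul (.c 2) (.a)) (.add (.c 14) (.a))) (.pow (.w) 2)) (.pow (.P) 3)) (.add (.mul (.c 2) (.pow (.u) 2)) (.mul (.c 12) (.pow (.t) 2)))),
    .c 0⟩

/-- free value column 95 -/
def vf95 : VFz := ⟨⟨9, 3, 1, 1, 0⟩, [0, 20714627017879200000000, 90274126245685200000000, -615425136578179200000000, 1096517711081646000000000, -811348813345986720000000, 219270821425976880000000],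
    .mul (.c (-1)) (.mul (.mul (.mul (.add (.mul (.sub (.c (-14)) (.mul (.c 2) (.a))) (.P)) (.mul (.mul (.mul (.c 18) (.a)) (.add (.c 14) (.a))) (.s))) (.pow (.w) 3)) (.pow (.P) 2)) (.c (-2))),
    .c 0,
    .mul (.c (-1)) (.mul (.mul (.mul (.mul (.mul (.c 2) (.a)) (.add (.c 14) (.a))) (.pow (.w) 3)) (.pow (.P) 3)) (.c (-2))),
    .c 0⟩

/-- free value column 96 -/
def vf96 : VFz := ⟨⟨9, 3, 1, 1, 1⟩, [0, -1626597822911040000000, -56466463499762400000000, 265120770936268800000000, -440582619163377600000000, 319764158122106880000000, -86208313476559680000000],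
    .mul (.c (-1)) (.mul (.mul (.mul (.add (.mul (.sub (.c (-14)) (.mul (.c 2) (.a))) (.P)) (.mul (.mul (.mul (.c 18) (.a)) (.add (.c 14) (.a))) (.s))) (.pow (.w) 3)) (.pow (.P) 2)) (.mul (.c (-2)) (.d))),
    .c 0,
    .mul (.c (-1)) (.mul (.mul (.mul (.mul (.mul (.c 2) (.a)) (.add (.c 14) (.a))) (.pow (.w) 3)) (.pow (.P) 3)) (.mul (.c (-2)) (.d))),
    .c 0⟩

/-- free value column 97 -/
def vf97 : VFz := ⟨⟨9, 3, 2, 0, 0⟩, [0, 20714627017879200000000, 90274126245685200000000, -615425136578179200000000, 1096517711081646000000000, -811348813345986720000000, 219270821425976880000000],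
    .mul (.c (-1)) (.mul (.mul (.mul (.add (.mul (.sub (.c (-14)) (.mul (.c 2) (.a))) (.P)) (.mul (.mul (.mul (.c 18) (.a)) (.add (.c 14) (.a))) (.s))) (.pow (.w) 3)) (.pow (.P) 2)) (.c 2)),
    .c 0,
    .mul (.c (-1)) (.mul (.mul (.mul (.mul (.mul (.c 2) (.a)) (.add (.c 14) (.a))) (.pow (.w) 3)) (.pow (.P) 3)) (.c 2)),
    .c 0⟩

/-- free value column 98 -/
def vf98 : VFz := ⟨⟨9, 3, 2, 0, 1⟩, [0, -1626597822911040000000, -56466463499762400000000, 265120770936268800000000, -440582619163377600000000, 319764158122106880000000, -86208313476559680000000],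
    .mul (.c (-1)) (.mul (.mul (.mul (.add (.mul (.sub (.c (-14)) (.mul (.c 2) (.a))) (.P)) (.mul (.mul (.mul (.c 18) (.a)) (.add (.c 14) (.a))) (.s))) (.pow (.w) 3)) (.pow (.P) 2)) (.mul (.c 2) (.d))),
    .c 0,
    .mul (.c (-1)) (.mul (.mul (.mul (.mul (.mul (.c 2) (.a)) (.add (.c 14) (.a))) (.pow (.w) 3)) (.pow (.P) 3)) (.mul (.c 2) (.d))),
    .c 0⟩

/-- free value column 99 -/
def vf99 : VFz := ⟨⟨9, 3, 2, 1, 0⟩, [0, 2439896734366560000000, 84699695249643600000000, -397681156404403200000000, 660873928745066400000000, -479646237183160320000000, 129312470214839520000000],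
    .mul (.c (-1)) (.mul (.mul (.mul (.add (.mul (.sub (.c (-14)) (.mul (.c 2) (.a))) (.P)) (.mul (.mul (.mul (.c 18) (.a)) (.add (.c 14) (.a))) (.s))) (.pow (.w) 3)) (.pow (.P) 2)) (.mul (.c (-2)) (.t))),
    .c 0,
    .mul (.c (-1)) (.mul (.mul (.mul (.mul (.mul (.c 2) (.a)) (.add (.c 14) (.a))) (.pow (.w) 3)) (.pow (.P) 3)) (.mul (.c (-2)) (.t))),
    .c 0⟩

/-- free value column 100 -/
def vf100 : VFz := ⟨⟨9, 3, 3, 0, 0⟩, [0, 813298911455520000000, 28233231749881200000000, -132560385468134400000000, 220291309581688800000000, -159882079061053440000000, 43104156738279840000000],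
    .mul (.c (-1)) (.mul (.mul (.mul (.add (.mul (.sub (.c (-14)) (.mul (.c 2) (.a))) (.P)) (.mul (.mul (.mul (.c 18) (.a)) (.add (.c 14) (.a))) (.s))) (.pow (.w) 3)) (.pow (.P) 2)) (.mul (.c 6) (.t))),
    .c 0,
    .mul (.c (-1)) (.mul (.mul (.mul (.mul (.mul (.c 2) (.a)) (.add (.c 14) (.a))) (.pow (.w) 3)) (.pow (.P) 3)) (.mul (.c 6) (.t))),
    .c 0⟩

/-- free value column 101 -/
def vf101 : VFz := ⟨⟨9, 4, 1, 1, 0⟩, [0, -813298911455520000000, -28233231749881200000000, 132560385468134400000000, -220291309581688800000000, 159882079061053440000000, -43104156738279840000000],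
    .mul (.c (-1)) (.mul (.mul (.mul (.add (.mul (.sub (.c (-14)) (.mul (.c 2) (.a))) (.P)) (.mul (.mul (.mul (.c 18) (.a)) (.add (.c 14) (.a))) (.s))) (.pow (.w) 4)) (.pow (.P) 2)) (.c (-2))),
    .c 0,
    .mul (.c (-1)) (.mul (.mul (.mul (.mul (.mul (.c 2) (.a)) (.add (.c 14) (.a))) (.pow (.w) 4)) (.pow (.P) 3)) (.c (-2))),
    .c 0⟩

/-- free value column 102 -/
def vf102 : VFz := ⟨⟨9, 4, 2, 0, 0⟩, [0, -813298911455520000000, -28233231749881200000000, 132560385468134400000000, -220291309581688800000000, 159882079061053440000000, -43104156738279840000000],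
    .mul (.c (-1)) (.mul (.mul (.mul (.add (.mul (.sub (.c (-14)) (.mul (.c 2) (.a))) (.P)) (.mul (.mul (.mul (.c 18) (.a)) (.add (.c 14) (.a))) (.s))) (.pow (.w) 4)) (.pow (.P) 2)) (.c 2)),
    .c 0,
    .mul (.c (-1)) (.mul (.mul (.mul (.mul (.mul (.c 2) (.a)) (.add (.c 14) (.a))) (.pow (.w) 4)) (.pow (.P) 3)) (.c 2)),
    .c 0⟩

/-- free value column 103 -/
def vf103 : VFz := ⟨⟨10, 0, 0, 0, 0⟩, [36004012402044960000000, -218109322845288000000000, 560686891362383520000000, -792436062937236480000000, 665756099020555200000000, -334774930336842240000000, 96029410395915139500000, -13966298650986759000000, 810201589454659500000],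
    .c 0,
    .c 0,
    .c 0,
    .c 0⟩

/-- free value column 104 -/
def vf104 : VFz := ⟨⟨10, 0, 0, 0, 1⟩, [-72008024804089920000000, 436218645690576000000000, -1121373782724767040000000, 1584872125874472960000000, -1331512198041110400000000, 669549860673684480000000, -192058820791830279000000, 27932597301973518000000, -1620403178909319000000],
    .c 0,
    .c 0,
    .c 0,
    .c 0⟩

/-- free value column 105 -/
def vf105 : VFz := ⟨⟨10, 0, 0, 0, 2⟩, [36004012402044960000000, -218109322845288000000000, 560686891362383520000000, -792436062937236480000000, 665756099020555200000000, -334774930336842240000000, 96029410395915139500000, -13966298650986759000000, 810201589454659500000],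
    .c 0,
    .mul (.c (-1)) (.mul (.mul (.add (.mul (.sub (.c (-14)) (.mul (.c 2) (.a))) (.P)) (.mul (.mul (.mul (.c 20) (.a)) (.add (.c 14) (.a))) (.s))) (.P)) (.c 2)),
    .c 0,
    .mul (.c (-1)) (.mul (.mul (.mul (.mul (.c 2) (.a)) (.add (.c 14) (.a))) (.pow (.P) 2)) (.c 2))⟩

/-- free value column 106 -/
def vf106 : VFz := ⟨⟨10, 0, 1, 0, 0⟩, [41498846836745760000000, -203848532720683200000000, 372272139447102720000000, -249919334963484480000000, -102567302228361600000000, 274846402051240320000000, -175171690607357241000000, 46986176460062322000000, -4096704275264601000000],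
    .c 0,
    .c 0,
    .c 0,
    .c 0⟩

/-- free value column 107 -/
def vf107 : VFz := ⟨⟨10, 0, 1, 0, 1⟩, [-10989668869401600000000, -28521580249209600000000, 376829503830561600000000, -1085033455947504000000000, 1536646802497833600000000, -1219242664776165120000000, 542402202006544761000000, -121904950222098162000000, 9813811729438521000000],
    .c 0,
    .c 0,
    .c 0,
    .c 0⟩

/-- free value column 108 -/
def vf108 : VFz := ⟨⟨10, 0, 1, 0, 2⟩, [-30509177967344160000000, 232370112969892800000000, -749101643277664320000000, 1334952790910988480000000, -1434079500269472000000000, 944396262724924800000000, -367230511399187520000000, 74918773762035840000000, -5717107454173920000000],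
    .c 0,
    .mul (.c (-1)) (.mul (.mul (.add (.mul (.sub (.c (-14)) (.mul (.c 2) (.a))) (.P)) (.mul (.mul (.mul (.c 20) (.a)) (.add (.c 14) (.a))) (.s))) (.P)) (.mul (.c 2) (.t))),
    .c 0,
    .mul (.c (-1)) (.mul (.mul (.mul (.mul (.c 2) (.a)) (.add (.c 14) (.a))) (.pow (.P) 2)) (.mul (.c 2) (.t)))⟩

/-- free value column 109 -/
def vf109 : VFz := ⟨⟨10, 0, 1, 1, 0⟩, [-564106973877039600000000, 3604235271466888800000000, -9973428629427728640000000, 14563812548692517040000000, -10905120742841514000000000, 2868390668624357520000000, 909535799519811969750000, -498005935497846499500000, -5312006659446590250000],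
    .mul (.c (-1)) (.mul (.mul (.add (.mul (.sub (.c (-14)) (.mul (.c 2) (.a))) (.P)) (.mul (.mul (.mul (.c 20) (.a)) (.add (.c 14) (.a))) (.s))) (.P)) (.c (-2))),
    .c 0,
    .mul (.c (-1)) (.mul (.mul (.mul (.mul (.c 2) (.a)) (.add (.c 14) (.a))) (.pow (.P) 2)) (.c (-2))),
    .c 0⟩

/-- free value column 110 -/
def vf110 : VFz := ⟨⟨10, 0, 1, 1, 1⟩, [70150972503880800000000, -857171018741365440000000, 3670096150624821120000000, -7951450852737060480000000, 9925959812387547600000000, -7401991355027937360000000, 3138992856253265760000000, -600303672717325920000000, 5717107454173920000000],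
    .mul (.c (-1)) (.mul (.mul (.add (.mul (.sub (.c (-14)) (.mul (.c 2) (.a))) (.P)) (.mul (.mul (.mul (.c 20) (.a)) (.add (.c 14) (.a))) (.s))) (.P)) (.mul (.c (-2)) (.d))),
    .c 0,
    .mul (.c (-1)) (.mul (.mul (.mul (.mul (.c 2) (.a)) (.add (.c 14) (.a))) (.pow (.P) 2)) (.mul (.c (-2)) (.d))),
    .c 0⟩

/-- free value column 111 -/
def vf111 : VFz := ⟨⟨10, 0, 1, 1, 2⟩, [-8602273603455840000000, 232403103450937440000000, -1001915427295288800000000, 1891047530311077600000000, -1887335912158023600000000, 1029518573371328880000000, -285852588845428080000000, 30736994768852400000000],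
    .mul (.c (-1)) (.mul (.mul (.add (.mul (.sub (.c (-14)) (.mul (.c 2) (.a))) (.P)) (.mul (.mul (.mul (.c 20) (.a)) (.add (.c 14) (.a))) (.s))) (.P)) (.mul (.c (-2)) (.pow (.d) 2))),
    .mul (.c (-1)) (.mul (.mul (.add (.mul (.sub (.c (-14)) (.mul (.c 2) (.a))) (.P)) (.mul (.mul (.mul (.c 20) (.a)) (.add (.c 14) (.a))) (.s))) (.P)) (.mul (.c 2) (.pow (.t) 2))),
    .mul (.c (-1)) (.mul (.mul (.mul (.mul (.c 2) (.a)) (.add (.c 14) (.a))) (.pow (.P) 2)) (.mul (.c (-2)) (.pow (.d) 2))),
    .mul (.c (-1)) (.mul (.mul (.mul (.mul (.c 2) (.a)) (.add (.c 14) (.a))) (.pow (.P) 2)) (.mul (.c 2) (.pow (.t) 2)))⟩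

/-- free value column 112 -/
def vf112 : VFz := ⟨⟨10, 0, 2, 0, 0⟩, [521888083137484560000000, -2892798161470516320000000, 7032081379644205920000000, -8904247969185621360000000, 4928046017007078000000000, 744664073231307600000000, -2119672589613128030250000, 695351173908636220500000, -5312006659446590250000],
    .mul (.c (-1)) (.mul (.mul (.add (.mul (.sub (.c (-14)) (.mul (.c 2) (.a))) (.P)) (.mul (.mul (.mul (.c 20) (.a)) (.add (.c 14) (.a))) (.s))) (.P)) (.c 2)),
    .c 0,
    .mul (.c (-1)) (.mul (.mul (.mul (.mul (.c 2) (.a)) (.add (.c 14) (.a))) (.pow (.P) 2)) (.c 2)),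
    .c 0⟩

/-- free value column 113 -/
def vf113 : VFz := ⟨⟨10, 0, 2, 0, 1⟩, [25276477844630880000000, -537181621002169920000000, 1835768845111662720000000, -2282644850329226880000000, 491542836783490800000000, 1395124536092772240000000, -1261121478073178400000000, 327518146117844640000000, 5717107454173920000000],
    .mul (.c (-1)) (.mul (.mul (.add (.mul (.sub (.c (-14)) (.mul (.c 2) (.a))) (.P)) (.mul (.mul (.mul (.c 20) (.a)) (.add (.c 14) (.a))) (.s))) (.P)) (.mul (.c 2) (.d))),
    .c 0,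
    .mul (.c (-1)) (.mul (.mul (.mul (.mul (.c 2) (.a)) (.add (.c 14) (.a))) (.pow (.P) 2)) (.mul (.c 2) (.d))),
    .c 0⟩

/-- free value column 114 -/
def vf114 : VFz := ⟨⟨10, 0, 2, 0, 2⟩, [-8602273603455840000000, 232403103450937440000000, -1001915427295288800000000, 1891047530311077600000000, -1887335912158023600000000, 1029518573371328880000000, -285852588845428080000000, 30736994768852400000000],
    .mul (.c (-1)) (.mul (.mul (.add (.mul (.sub (.c (-14)) (.mul (.c 2) (.a))) (.P)) (.mul (.mul (.mul (.c 20) (.a)) (.add (.c 14) (.a))) (.s))) (.P)) (.mul (.c 2) (.pow (.d) 2))),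
    .mul (.c (-1)) (.mul (.mul (.add (.mul (.sub (.c (-14)) (.mul (.c 2) (.a))) (.P)) (.mul (.mul (.mul (.c 20) (.a)) (.add (.c 14) (.a))) (.s))) (.P)) (.mul (.c 2) (.pow (.t) 2))),
    .mul (.c (-1)) (.mul (.mul (.mul (.mul (.c 2) (.a)) (.add (.c 14) (.a))) (.pow (.P) 2)) (.mul (.c 2) (.pow (.d) 2))),
    .mul (.c (-1)) (.mul (.mul (.mul (.mul (.c 2) (.a)) (.add (.c 14) (.a))) (.pow (.P) 2)) (.mul (.c 2) (.pow (.t) 2)))⟩

/-- free value column 115 -/
def vf115 : VFz := ⟨⟨10, 0, 2, 1, 0⟩, [-222823761263114760000000, 2291960450772921600000000, -8243956119280807800000000, 14642759125849259160000000, -14331703713703651800000000, 7901579062012741560000000, -2355453482199153840000000, 321926268402436320000000, -4287830590630440000000],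
    .mul (.c (-1)) (.mul (.mul (.add (.mul (.sub (.c (-14)) (.mul (.c 2) (.a))) (.P)) (.mul (.mul (.mul (.c 20) (.a)) (.add (.c 14) (.a))) (.s))) (.P)) (.mul (.c (-2)) (.t))),
    .c 0,
    .mul (.c (-1)) (.mul (.mul (.mul (.mul (.c 2) (.a)) (.add (.c 14) (.a))) (.pow (.P) 2)) (.mul (.c (-2)) (.t))),
    .c 0⟩

/-- free value column 116 -/
def vf116 : VFz := ⟨⟨10, 0, 2, 1, 1⟩, [44143552227902400000000, -778697187314114880000000, 2927599728305285880000000, -4760606197187832600000000, 3884088189476212200000000, -1615468724583827400000000, 346255280627011560000000, -47314641550637160000000],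
    .mul (.c (-1)) (.mul (.mul (.add (.mul (.sub (.c (-14)) (.mul (.c 2) (.a))) (.P)) (.mul (.mul (.mul (.c 20) (.a)) (.add (.c 14) (.a))) (.s))) (.P)) (.mul (.mul (.c (-2)) (.t)) (.d))),
    .c 0,
    .mul (.c (-1)) (.mul (.mul (.mul (.mul (.c 2) (.a)) (.add (.c 14) (.a))) (.pow (.P) 2)) (.mul (.mul (.c (-2)) (.t)) (.d))),
    .c 0⟩

/-- free value column 117 -/
def vf117 : VFz := ⟨⟨10, 0, 2, 2, 0⟩, [-461687593527764100000000, 2723381586381133440000000, -6660330203219742000000000, 6649145654469809400000000, -1347848527418750700000000, -1518723495254434140000000, 594966801729171060000000, 23052746076639300000000],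
    .mul (.c (-1)) (.mul (.mul (.add (.mul (.sub (.c (-14)) (.mul (.c 2) (.a))) (.P)) (.mul (.mul (.mul (.c 20) (.a)) (.add (.c 14) (.a))) (.s))) (.P)) (.add (.mul (.c 2) (.pow (.u) 2)) (.mul (.c (-4)) (.pow (.t) 2)))),
    .c 0,
    .mul (.c (-1)) (.mul (.mul (.mul (.mul (.c 2) (.a)) (.add (.c 14) (.a))) (.pow (.P) 2)) (.add (.mul (.c 2) (.pow (.u) 2)) (.mul (.c (-4)) (.pow (.t) 2)))),
    .c 0⟩

/-- free value column 118 -/
def vf118 : VFz := ⟨⟨10, 0, 2, 2, 1⟩, [127301188865019120000000, -978637051243187280000000, 2653520382663544800000000, -2377315236056342400000000, -242424166226621400000000, 1049065000498909800000000, -231086381178679740000000],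
    .mul (.c (-1)) (.mul (.mul (.add (.mul (.sub (.c (-14)) (.mul (.c 2) (.a))) (.P)) (.mul (.mul (.mul (.c 20) (.a)) (.add (.c 14) (.a))) (.s))) (.P)) (.add (.mul (.mul (.c 2) (.pow (.u) 2)) (.d)) (.mul (.mul (.c (-4)) (.pow (.t) 2)) (.d)))),
    .c 0,
    .mul (.c (-1)) (.mul (.mul (.mul (.mul (.c 2) (.a)) (.add (.c 14) (.a))) (.pow (.P) 2)) (.add (.mul (.mul (.c 2) (.pow (.u) 2)) (.d)) (.mul (.mul (.c (-4)) (.pow (.t) 2)) (.d)))),
    .c 0⟩

/-- free value column 119 -/
def vf119 : VFz := ⟨⟨10, 0, 3, 0, 0⟩, [157905488881947240000000, -1129977923999279040000000, 3487192766821988280000000, -5743616213693960280000000, 5348280564802085400000000, -2839108505802501240000000, 844812615418254000000000, -124059515564990880000000, -1429276863543480000000],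
    .mul (.c (-1)) (.mul (.mul (.add (.mul (.sub (.c (-14)) (.mul (.c 2) (.a))) (.P)) (.mul (.mul (.mul (.c 20) (.a)) (.add (.c 14) (.a))) (.s))) (.P)) (.mul (.c 6) (.t))),
    .c 0,
    .mul (.c (-1)) (.mul (.mul (.mul (.mul (.c 2) (.a)) (.add (.c 14) (.a))) (.pow (.P) 2)) (.mul (.c 6) (.t))),
    .c 0⟩

/-- free value column 120 -/
def vf120 : VFz := ⟨⟨10, 0, 3, 0, 1⟩, [-9734457814079040000000, -150915226489634880000000, 1080061980875869320000000, -2803583924056477800000000, 3665255459155882200000000, -2502605568901488120000000, 797155074754700760000000, -75633337524772440000000],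
    .mul (.c (-1)) (.mul (.mul (.add (.mul (.sub (.c (-14)) (.mul (.c 2) (.a))) (.P)) (.mul (.mul (.mul (.c 20) (.a)) (.add (.c 14) (.a))) (.s))) (.P)) (.mul (.mul (.c 6) (.t)) (.d))),
    .c 0,
    .mul (.c (-1)) (.mul (.mul (.mul (.mul (.c 2) (.a)) (.add (.c 14) (.a))) (.pow (.P) 2)) (.mul (.mul (.c 6) (.t)) (.d))),
    .c 0⟩

/-- free value column 121 -/
def vf121 : VFz := ⟨⟨10, 0, 3, 1, 0⟩, [-8602273603455840000000, 232403103450937440000000, -1001915427295288800000000, 1891047530311077600000000, -1887335912158023600000000, 1029518573371328880000000, -285852588845428080000000, 30736994768852400000000],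
    .mul (.c (-1)) (.mul (.mul (.add (.mul (.sub (.c (-14)) (.mul (.c 2) (.a))) (.P)) (.mul (.mul (.mul (.c 20) (.a)) (.add (.c 14) (.a))) (.s))) (.P)) (.mul (.c (-2)) (.pow (.u) 2))),
    .c 0,
    .mul (.c (-1)) (.mul (.mul (.mul (.mul (.c 2) (.a)) (.add (.c 14) (.a))) (.pow (.P) 2)) (.mul (.c (-2)) (.pow (.u) 2))),
    .c 0⟩

/-- free value column 122 -/
def vf122 : VFz := ⟨⟨10, 0, 4, 0, 0⟩, [453085319924308260000000, -2490978482930196000000000, 5658414775924453200000000, -4758098124158731800000000, -539487384739272900000000, 2548242068625763020000000, -880819390574599140000000, 7684248692213100000000],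
    .mul (.c (-1)) (.mul (.mul (.add (.mul (.sub (.c (-14)) (.mul (.c 2) (.a))) (.P)) (.mul (.mul (.mul (.c 20) (.a)) (.add (.c 14) (.a))) (.s))) (.P)) (.add (.mul (.c 2) (.pow (.u) 2)) (.mul (.c 12) (.pow (.t) 2)))),
    .c 0,
    .mul (.c (-1)) (.mul (.mul (.mul (.mul (.c 2) (.a)) (.add (.c 14) (.a))) (.pow (.P) 2)) (.add (.mul (.c 2) (.pow (.u) 2)) (.mul (.c 12) (.pow (.t) 2)))),
    .c 0⟩

/-- free value column 123 -/
def vf123 : VFz := ⟨⟨10, 0, 4, 0, 1⟩, [-127301188865019120000000, 978637051243187280000000, -2653520382663544800000000, 2377315236056342400000000, 242424166226621400000000, -1049065000498909800000000, 231086381178679740000000],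
    .mul (.c (-1)) (.mul (.mul (.add (.mul (.sub (.c (-14)) (.mul (.c 2) (.a))) (.P)) (.mul (.mul (.mul (.c 20) (.a)) (.add (.c 14) (.a))) (.s))) (.P)) (.add (.mul (.mul (.c 2) (.pow (.u) 2)) (.d)) (.mul (.mul (.c 12) (.pow (.t) 2)) (.d)))),
    .c 0,
    .mul (.c (-1)) (.mul (.mul (.mul (.mul (.c 2) (.a)) (.add (.c 14) (.a))) (.pow (.P) 2)) (.add (.mul (.mul (.c 2) (.pow (.u) 2)) (.d)) (.mul (.mul (.c 12) (.pow (.t) 2)) (.d)))),
    .c 0⟩

/-- free value column 124 -/
def vf124 : VFz := ⟨⟨10, 1, 0, 0, 0⟩, [-72008024804089920000000, 436218645690576000000000, -1121373782724767040000000, 1584872125874472960000000, -1331512198041110400000000, 669549860673684480000000, -192058820791830279000000, 27932597301973518000000, -1620403178909319000000],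
    .c 0,
    .c 0,
    .c 0,
    .c 0⟩

/-- free value column 125 -/
def vf125 : VFz := ⟨⟨10, 1, 0, 0, 1⟩, [72008024804089920000000, -436218645690576000000000, 1121373782724767040000000, -1584872125874472960000000, 1331512198041110400000000, -669549860673684480000000, 192058820791830279000000, -27932597301973518000000, 1620403178909319000000],
    .c 0,
    .c 0,
    .c 0,
    .c 0⟩

/-- free value column 126 -/
def vf126 : VFz := ⟨⟨10, 1, 1, 0, 0⟩, [-10989668869401600000000, -28521580249209600000000, 376829503830561600000000, -1085033455947504000000000, 1536646802497833600000000, -1219242664776165120000000, 542402202006544761000000, -121904950222098162000000, 9813811729438521000000],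
    .c 0,
    .c 0,
    .c 0,
    .c 0⟩

/-- free value column 127 -/
def vf127 : VFz := ⟨⟨10, 1, 1, 0, 1⟩, [-61018355934688320000000, 464740225939785600000000, -1498203286555328640000000, 2669905581821976960000000, -2868159000538944000000000, 1888792525449849600000000, -734461022798375040000000, 149837547524071680000000, -11434214908347840000000],
    .c 0,
    .c 0,
    .c 0,
    .c 0⟩

/-- free value column 128 -/
def vf128 : VFz := ⟨⟨10, 1, 1, 1, 0⟩, [47713725174255840000000, -697176319871767680000000, 2752932497868241920000000, -5117047851533143680000000, 5208751324585519200000000, -3003433409467582560000000, 938935689090043680000000, -136392763299740640000000, 5717107454173920000000],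
    .mul (.c (-1)) (.mul (.mul (.mul (.add (.mul (.sub (.c (-14)) (.mul (.c 2) (.a))) (.P)) (.mul (.mul (.mul (.c 20) (.a)) (.add (.c 14) (.a))) (.s))) (.w)) (.P)) (.c (-2))),
    .c 0,
    .mul (.c (-1)) (.mul (.mul (.mul (.mul (.mul (.c 2) (.a)) (.add (.c 14) (.a))) (.w)) (.pow (.P) 2)) (.c (-2))),
    .c 0⟩

/-- free value column 129 -/
def vf129 : VFz := ⟨⟨10, 1, 1, 1, 1⟩, [-17204547206911680000000, 464806206901874880000000, -2003830854590577600000000, 3782095060622155200000000, -3774671824316047200000000, 2059037146742657760000000, -571705177690856160000000, 61473989537704800000000],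
    .mul (.c (-1)) (.mul (.mul (.mul (.add (.mul (.sub (.c (-14)) (.mul (.c 2) (.a))) (.P)) (.mul (.mul (.mul (.c 20) (.a)) (.add (.c 14) (.a))) (.s))) (.w)) (.P)) (.mul (.c (-2)) (.d))),
    .c 0,
    .mul (.c (-1)) (.mul (.mul (.mul (.mul (.mul (.c 2) (.a)) (.add (.c 14) (.a))) (.w)) (.pow (.P) 2)) (.mul (.c (-2)) (.d))),
    .c 0⟩

/-- free value column 130 -/
def vf130 : VFz := ⟨⟨10, 1, 2, 0, 0⟩, [47713725174255840000000, -697176319871767680000000, 2752932497868241920000000, -5117047851533143680000000, 5208751324585519200000000, -3003433409467582560000000, 938935689090043680000000, -136392763299740640000000, 5717107454173920000000],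
    .mul (.c (-1)) (.mul (.mul (.mul (.add (.mul (.sub (.c (-14)) (.mul (.c 2) (.a))) (.P)) (.mul (.mul (.mul (.c 20) (.a)) (.add (.c 14) (.a))) (.s))) (.w)) (.P)) (.c 2)),
    .c 0,
    .mul (.c (-1)) (.mul (.mul (.mul (.mul (.mul (.c 2) (.a)) (.add (.c 14) (.a))) (.w)) (.pow (.P) 2)) (.c 2)),
    .c 0⟩

/-- free value column 131 -/
def vf131 : VFz := ⟨⟨10, 1, 2, 0, 1⟩, [-17204547206911680000000, 464806206901874880000000, -2003830854590577600000000, 3782095060622155200000000, -3774671824316047200000000, 2059037146742657760000000, -571705177690856160000000, 61473989537704800000000],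
    .mul (.c (-1)) (.mul (.mul (.mul (.add (.mul (.sub (.c (-14)) (.mul (.c 2) (.a))) (.P)) (.mul (.mul (.mul (.c 20) (.a)) (.add (.c 14) (.a))) (.s))) (.w)) (.P)) (.mul (.c 2) (.d))),
    .c 0,
    .mul (.c (-1)) (.mul (.mul (.mul (.mul (.mul (.c 2) (.a)) (.add (.c 14) (.a))) (.w)) (.pow (.P) 2)) (.mul (.c 2) (.d))),
    .c 0⟩

/-- free value column 132 -/
def vf132 : VFz := ⟨⟨10, 1, 2, 1, 0⟩, [25806820810367520000000, -697209310352812320000000, 3005746281885866400000000, -5673142590933232800000000, 5662007736474070800000000, -3088555720113986640000000, 857557766536284240000000, -92210984306557200000000],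
    .mul (.c (-1)) (.mul (.mul (.mul (.add (.mul (.sub (.c (-14)) (.mul (.c 2) (.a))) (.P)) (.mul (.mul (.mul (.c 20) (.a)) (.add (.c 14) (.a))) (.s))) (.w)) (.P)) (.mul (.c (-2)) (.t))),
    .c 0,
    .mul (.c (-1)) (.mul (.mul (.mul (.mul (.mul (.c 2) (.a)) (.add (.c 14) (.a))) (.w)) (.pow (.P) 2)) (.mul (.c (-2)) (.t))),
    .c 0⟩

/-- free value column 133 -/
def vf133 : VFz := ⟨⟨10, 1, 2, 2, 0⟩, [0, 313138154597589720000000, -337644274842214200000000, -5231522683396296000000000, 15328632665642782500000000, -15427767757781932560000000, 5338019527719711840000000],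
    .mul (.c (-1)) (.mul (.mul (.mul (.add (.mul (.sub (.c (-14)) (.mul (.c 2) (.a))) (.P)) (.mul (.mul (.mul (.c 20) (.a)) (.add (.c 14) (.a))) (.s))) (.w)) (.P)) (.add (.mul (.c 2) (.pow (.u) 2)) (.mul (.c (-4)) (.pow (.t) 2)))),
    .c 0,
    .mul (.c (-1)) (.mul (.mul (.mul (.mul (.mul (.c 2) (.a)) (.add (.c 14) (.a))) (.w)) (.pow (.P) 2)) (.add (.mul (.c 2) (.pow (.u) 2)) (.mul (.c (-4)) (.pow (.t) 2)))),
    .c 0⟩

/-- free value column 134 -/
def vf134 : VFz := ⟨⟨10, 1, 2, 2, 1⟩, [0, -125410084964312400000000, 1064989178856722700000000, -4391026259569538400000000, 8831750007760759800000000, -8141348609824908240000000, 2753615130063972300000000],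
    .mul (.c (-1)) (.mul (.mul (.mul (.add (.mul (.sub (.c (-14)) (.mul (.c 2) (.a))) (.P)) (.mul (.mul (.mul (.c 20) (.a)) (.add (.c 14) (.a))) (.s))) (.w)) (.P)) (.add (.mul (.mul (.c 2) (.pow (.u) 2)) (.d)) (.mul (.mul (.c (-4)) (.pow (.t) 2)) (.d)))),
    .c 0,
    .mul (.c (-1)) (.mul (.mul (.mul (.mul (.mul (.c 2) (.a)) (.add (.c 14) (.a))) (.w)) (.pow (.P) 2)) (.add (.mul (.mul (.c 2) (.pow (.u) 2)) (.d)) (.mul (.mul (.c (-4)) (.pow (.t) 2)) (.d)))),
    .c 0⟩

/-- free value column 135 -/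
def vf135 : VFz := ⟨⟨10, 1, 3, 0, 0⟩, [8602273603455840000000, -232403103450937440000000, 1001915427295288800000000, -1891047530311077600000000, 1887335912158023600000000, -1029518573371328880000000, 285852588845428080000000, -30736994768852400000000],
    .mul (.c (-1)) (.mul (.mul (.mul (.add (.mul (.sub (.c (-14)) (.mul (.c 2) (.a))) (.P)) (.mul (.mul (.mul (.c 20) (.a)) (.add (.c 14) (.a))) (.s))) (.w)) (.P)) (.mul (.c 6) (.t))),
    .c 0,
    .mul (.c (-1)) (.mul (.mul (.mul (.mul (.mul (.c 2) (.a)) (.add (.c 14) (.a))) (.w)) (.pow (.P) 2)) (.mul (.c 6) (.t))),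
    .c 0⟩

/-- free value column 136 -/
def vf136 : VFz := ⟨⟨10, 1, 4, 0, 0⟩, [0, -313138154597589720000000, 337644274842214200000000, 5231522683396296000000000, -15328632665642782500000000, 15427767757781932560000000, -5338019527719711840000000],
    .mul (.c (-1)) (.mul (.mul (.mul (.add (.mul (.sub (.c (-14)) (.mul (.c 2) (.a))) (.P)) (.mul (.mul (.mul (.c 20) (.a)) (.add (.c 14) (.a))) (.s))) (.w)) (.P)) (.add (.mul (.c 2) (.pow (.u) 2)) (.mul (.c 12) (.pow (.t) 2)))),
    .c 0,
    .mul (.c (-1)) (.mul (.mul (.mul (.mul (.mul (.c 2) (.a)) (.add (.c 14) (.a))) (.w)) (.pow (.P) 2)) (.add (.mul (.c 2) (.pow (.u) 2)) (.mul (.c 12) (.pow (.t) 2)))),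
    .c 0⟩

/-- free value column 137 -/
def vf137 : VFz := ⟨⟨10, 1, 4, 0, 1⟩, [0, 125410084964312400000000, -1064989178856722700000000, 4391026259569538400000000, -8831750007760759800000000, 8141348609824908240000000, -2753615130063972300000000],
    .mul (.c (-1)) (.mul (.mul (.mul (.add (.mul (.sub (.c (-14)) (.mul (.c 2) (.a))) (.P)) (.mul (.mul (.mul (.c 20) (.a)) (.add (.c 14) (.a))) (.s))) (.w)) (.P)) (.add (.mul (.mul (.c 2) (.pow (.u) 2)) (.d)) (.mul (.mul (.c 12) (.pow (.t) 2)) (.d)))),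
    .c 0,
    .mul (.c (-1)) (.mul (.mul (.mul (.mul (.mul (.c 2) (.a)) (.add (.c 14) (.a))) (.w)) (.pow (.P) 2)) (.add (.mul (.mul (.c 2) (.pow (.u) 2)) (.d)) (.mul (.mul (.c 12) (.pow (.t) 2)) (.d)))),
    .c 0⟩

/-- free value column 138 -/
def vf138 : VFz := ⟨⟨10, 2, 0, 0, 0⟩, [36004012402044960000000, -218109322845288000000000, 560686891362383520000000, -792436062937236480000000, 665756099020555200000000, -334774930336842240000000, 96029410395915139500000, -13966298650986759000000, 810201589454659500000],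
    .c 0,
    .c 0,
    .c 0,
    .c 0⟩

/-- free value column 139 -/
def vf139 : VFz := ⟨⟨10, 2, 1, 0, 0⟩, [-30509177967344160000000, 232370112969892800000000, -749101643277664320000000, 1334952790910988480000000, -1434079500269472000000000, 944396262724924800000000, -367230511399187520000000, 74918773762035840000000, -5717107454173920000000],
    .c 0,
    .c 0,
    .c 0,
    .c 0⟩

/-- free value column 140 -/
def vf140 : VFz := ⟨⟨10, 2, 1, 1, 0⟩, [-8602273603455840000000, 232403103450937440000000, -1001915427295288800000000, 1891047530311077600000000, -1887335912158023600000000, 1029518573371328880000000, -285852588845428080000000, 30736994768852400000000],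
    .mul (.c (-1)) (.mul (.mul (.mul (.add (.mul (.sub (.c (-14)) (.mul (.c 2) (.a))) (.P)) (.mul (.mul (.mul (.c 20) (.a)) (.add (.c 14) (.a))) (.s))) (.pow (.w) 2)) (.P)) (.c (-2))),
    .c 0,
    .mul (.c (-1)) (.mul (.mul (.mul (.mul (.mul (.c 2) (.a)) (.add (.c 14) (.a))) (.pow (.w) 2)) (.pow (.P) 2)) (.c (-2))),
    .c 0⟩

/-- free value column 141 -/
def vf141 : VFz := ⟨⟨10, 2, 2, 0, 0⟩, [-8602273603455840000000, 232403103450937440000000, -1001915427295288800000000, 1891047530311077600000000, -1887335912158023600000000, 1029518573371328880000000, -285852588845428080000000, 30736994768852400000000],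
    .mul (.c (-1)) (.mul (.mul (.mul (.add (.mul (.sub (.c (-14)) (.mul (.c 2) (.a))) (.P)) (.mul (.mul (.mul (.c 20) (.a)) (.add (.c 14) (.a))) (.s))) (.pow (.w) 2)) (.P)) (.c 2)),
    .c 0,
    .mul (.c (-1)) (.mul (.mul (.mul (.mul (.mul (.c 2) (.a)) (.add (.c 14) (.a))) (.pow (.w) 2)) (.pow (.P) 2)) (.c 2)),
    .c 0⟩

/-- free value column 142 -/
def vf142 : VFz := ⟨⟨10, 2, 2, 2, 0⟩, [0, 36854947657803240000000, -1077567711851433600000000, 5339105010072036000000000, -10017711648290430000000000, 8013597410533831200000000, -2321750875004962380000000],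
    .mul (.c (-1)) (.mul (.mul (.mul (.add (.mul (.sub (.c (-14)) (.mul (.c 2) (.a))) (.P)) (.mul (.mul (.mul (.c 20) (.a)) (.add (.c 14) (.a))) (.s))) (.pow (.w) 2)) (.P)) (.add (.mul (.c 2) (.pow (.u) 2)) (.mul (.c (-4)) (.pow (.t) 2)))),
    .c 0,
    .mul (.c (-1)) (.mul (.mul (.mul (.mul (.mul (.c 2) (.a)) (.add (.c 14) (.a))) (.pow (.w) 2)) (.pow (.P) 2)) (.add (.mul (.c 2) (.pow (.u) 2)) (.mul (.c (-4)) (.pow (.t) 2)))),
    .c 0⟩

/-- free value column 143 -/
def vf143 : VFz := ⟨⟨10, 2, 2, 2, 1⟩, [0, 5807407837455000000000, 45872567296636500000000, -239540942732490000000000, -208693559089430100000000, 1059929895205177920000000, -662416299266221080000000],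
    .mul (.c (-1)) (.mul (.mul (.mul (.add (.mul (.sub (.c (-14)) (.mul (.c 2) (.a))) (.P)) (.mul (.mul (.mul (.c 20) (.a)) (.add (.c 14) (.a))) (.s))) (.pow (.w) 2)) (.P)) (.add (.mul (.mul (.c 2) (.pow (.u) 2)) (.d)) (.mul (.mul (.c (-4)) (.pow (.t) 2)) (.d)))),
    .c 0,
    .mul (.c (-1)) (.mul (.mul (.mul (.mul (.mul (.c 2) (.a)) (.add (.c 14) (.a))) (.pow (.w) 2)) (.pow (.P) 2)) (.add (.mul (.mul (.c 2) (.pow (.u) 2)) (.d)) (.mul (.mul (.c (-4)) (.pow (.t) 2)) (.d)))),
    .c 0⟩

/-- free value column 144 -/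
def vf144 : VFz := ⟨⟨10, 2, 4, 0, 0⟩, [0, -36854947657803240000000, 1077567711851433600000000, -5339105010072036000000000, 10017711648290430000000000, -8013597410533831200000000, 2321750875004962380000000],
    .mul (.c (-1)) (.mul (.mul (.mul (.add (.mul (.sub (.c (-14)) (.mul (.c 2) (.a))) (.P)) (.mul (.mul (.mul (.c 20) (.a)) (.add (.c 14) (.a))) (.s))) (.pow (.w) 2)) (.P)) (.add (.mul (.c 2) (.pow (.u) 2)) (.mul (.c 12) (.pow (.t) 2)))),
    .c 0,
    .mul (.c (-1)) (.mul (.mul (.mul (.mul (.mul (.c 2) (.a)) (.add (.c 14) (.a))) (.pow (.w) 2)) (.pow (.P) 2)) (.add (.mul (.c 2) (.pow (.u) 2)) (.mul (.c 12) (.pow (.t) 2)))),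
    .c 0⟩

/-- free value column 145 -/
def vf145 : VFz := ⟨⟨10, 2, 4, 0, 1⟩, [0, -5807407837455000000000, -45872567296636500000000, 239540942732490000000000, 208693559089430100000000, -1059929895205177920000000, 662416299266221080000000],
    .mul (.c (-1)) (.mul (.mul (.mul (.add (.mul (.sub (.c (-14)) (.mul (.c 2) (.a))) (.P)) (.mul (.mul (.mul (.c 20) (.a)) (.add (.c 14) (.a))) (.s))) (.pow (.w) 2)) (.P)) (.add (.mul (.mul (.c 2) (.pow (.u) 2)) (.d)) (.mul (.mul (.c 12) (.pow (.t) 2)) (.d)))),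
    .c 0,
    .mul (.c (-1)) (.mul (.mul (.mul (.mul (.mul (.c 2) (.a)) (.add (.c 14) (.a))) (.pow (.w) 2)) (.pow (.P) 2)) (.add (.mul (.mul (.c 2) (.pow (.u) 2)) (.d)) (.mul (.mul (.c 12) (.pow (.t) 2)) (.d)))),
    .c 0⟩

/-- free value column 146 -/
def vf146 : VFz := ⟨⟨11, 0, 0, 0, 0⟩, [-8238884299107840000000, 53358999126269760000000, -148116847813331040000000, 229378338341984160000000, -216055045993832640000000, 126589307516481600000000, -45321533446744800000000, 9305803362189600000000, -903136157683200000000, 2999363774400000000],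
    .c 0,
    .c 0,
    .c 0,
    .c 0⟩

/-- free value column 147 -/
def vf147 : VFz := ⟨⟨11, 0, 0, 0, 1⟩, [16477768598215680000000, -106717998252539520000000, 296233695626662080000000, -458756676683968320000000, 432110091987665280000000, -253178615032963200000000, 90643066893489600000000, -18611606724379200000000, 1806272315366400000000, -5998727548800000000],
    .c 0,
    .c 0,
    .c 0,
    .c 0⟩

/-- free value column 148 -/
def vf148 : VFz := ⟨⟨11, 0, 0, 0, 2⟩, [-8238884299107840000000, 53358999126269760000000, -148116847813331040000000, 229378338341984160000000, -216055045993832640000000, 126589307516481600000000, -45321533446744800000000, 9305803362189600000000, -903136157683200000000, 2999363774400000000],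
    .c 0,
    .mul (.c (-1)) (.mul (.add (.mul (.sub (.c (-14)) (.mul (.c 2) (.a))) (.P)) (.mul (.mul (.mul (.c 22) (.a)) (.add (.c 14) (.a))) (.s))) (.c 2)),
    .c 0,
    .mul (.c (-1)) (.mul (.mul (.mul (.mul (.c 2) (.a)) (.add (.c 14) (.a))) (.P)) (.c 2))⟩

/-- free value column 149 -/
def vf149 : VFz := ⟨⟨11, 0, 1, 0, 0⟩, [-9236850761537280000000, 46629213204329280000000, -83273493994205760000000, 36350247361982400000000, 81817617940954560000000, -140187797792118720000000, 94801959498335040000000, -31056950009131200000000, 4282047993706560000000, -125993442314880000000],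
    .c 0,
    .c 0,
    .c 0,
    .c 0⟩

/-- free value column 150 -/
def vf150 : VFz := ⟨⟨11, 0, 1, 0, 1⟩, [1995932924858880000000, 13459571843880960000000, -129686707638250560000000, 386056181960003520000000, -595745327869574400000000, 533554210617200640000000, -280246985890159680000000, 80725506742641600000000, -10370368302779520000000, 257985612178560000000],
    .c 0,
    .c 0,
    .c 0,
    .c 0⟩

/-- free value column 151 -/
def vf151 : VFz := ⟨⟨11, 0, 1, 0, 2⟩, [7240917836678400000000, -60088785048210240000000, 212960201632456320000000, -422406429321985920000000, 513927709928619840000000, -393366412825081920000000, 185445026391824640000000, -49668556733510400000000, 6088320309072960000000, -131992169863680000000],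
    .c 0,
    .mul (.c (-1)) (.mul (.add (.mul (.sub (.c (-14)) (.mul (.c 2) (.a))) (.P)) (.mul (.mul (.mul (.c 22) (.a)) (.add (.c 14) (.a))) (.s))) (.mul (.c 2) (.t))),
    .c 0,
    .mul (.c (-1)) (.mul (.mul (.mul (.mul (.c 2) (.a)) (.add (.c 14) (.a))) (.P)) (.mul (.c 2) (.t)))⟩

/-- free value column 152 -/
def vf152 : VFz := ⟨⟨11, 0, 1, 1, 0⟩, [132142771951550640000000, -899890949418723360000000, 2708297478461877120000000, -4030662329024904720000000, 2427979555097979120000000, 572400999840831840000000, -1403405940784211280000000, 523181413837953360000000, -29912507474376240000000, -130492487976480000000],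
    .mul (.c (-1)) (.mul (.add (.mul (.sub (.c (-14)) (.mul (.c 2) (.a))) (.P)) (.mul (.mul (.mul (.c 22) (.a)) (.add (.c 14) (.a))) (.s))) (.c (-2))),
    .c 0,
    .mul (.c (-1)) (.mul (.mul (.mul (.mul (.c 2) (.a)) (.add (.c 14) (.a))) (.P)) (.c (-2))),
    .c 0⟩

/-- free value column 153 -/
def vf153 : VFz := ⟨⟨11, 0, 1, 1, 1⟩, [-26436542275750320000000, 312925707014951520000000, -1404677926852643520000000, 3509676537686393760000000, -5617034107801129440000000, 5973714909107618400000000, -4076955839068902720000000, 1601732635974565920000000, -273077365954967280000000, 131992169863680000000],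
    .mul (.c (-1)) (.mul (.add (.mul (.sub (.c (-14)) (.mul (.c 2) (.a))) (.P)) (.mul (.mul (.mul (.c 22) (.a)) (.add (.c 14) (.a))) (.s))) (.mul (.c (-2)) (.d))),
    .c 0,
    .mul (.c (-1)) (.mul (.mul (.mul (.mul (.c 2) (.a)) (.add (.c 14) (.a))) (.P)) (.mul (.c (-2)) (.d))),
    .c 0⟩

/-- free value column 154 -/
def vf154 : VFz := ⟨⟨11, 0, 1, 1, 2⟩, [12760213469220000000000, -129488321148600960000000, 470080654891711920000000, -869978218882419360000000, 923849259814454400000000, -581253324605069760000000, 211173331924094400000000, -40240023942525120000000, 3096428479134480000000],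
    .mul (.c (-1)) (.mul (.add (.mul (.sub (.c (-14)) (.mul (.c 2) (.a))) (.P)) (.mul (.mul (.mul (.c 22) (.a)) (.add (.c 14) (.a))) (.s))) (.mul (.c (-2)) (.pow (.d) 2))),
    .mul (.c (-1)) (.mul (.add (.mul (.sub (.c (-14)) (.mul (.c 2) (.a))) (.P)) (.mul (.mul (.mul (.c 22) (.a)) (.add (.c 14) (.a))) (.s))) (.mul (.c 2) (.pow (.t) 2))),
    .mul (.c (-1)) (.mul (.mul (.mul (.mul (.c 2) (.a)) (.add (.c 14) (.a))) (.P)) (.mul (.c (-2)) (.pow (.d) 2))),
    .mul (.c (-1)) (.mul (.mul (.mul (.mul (.c 2) (.a)) (.add (.c 14) (.a))) (.P)) (.mul (.c 2) (.pow (.t) 2)))⟩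

/-- free value column 155 -/
def vf155 : VFz := ⟨⟨11, 0, 2, 0, 0⟩, [-100379393638861680000000, 574095736151370720000000, -1490332613226871680000000, 1675271370958078320000000, 231519338394336720000000, -2395051167184653600000000, 2151321123969304560000000, -693692771827834800000000, 47378868893107920000000, -130492487976480000000],
    .mul (.c (-1)) (.mul (.add (.mul (.sub (.c (-14)) (.mul (.c 2) (.a))) (.P)) (.mul (.mul (.mul (.c 22) (.a)) (.add (.c 14) (.a))) (.s))) (.c 2)),
    .c 0,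
    .mul (.c (-1)) (.mul (.mul (.mul (.mul (.c 2) (.a)) (.add (.c 14) (.a))) (.P)) (.c 2)),
    .c 0⟩

/-- free value column 156 -/
def vf156 : VFz := ⟨⟨11, 0, 2, 0, 1⟩, [-39086147274486480000000, 325205147675872800000000, -901565095979116800000000, 815049196487255520000000, 893781648686072160000000, -2861968785037175520000000, 2861372458588875840000000, -1341435426737444640000000, 248515011420283440000000, 131992169863680000000],
    .mul (.c (-1)) (.mul (.add (.mul (.sub (.c (-14)) (.mul (.c 2) (.a))) (.P)) (.mul (.mul (.mul (.c 22) (.a)) (.add (.c 14) (.a))) (.s))) (.mul (.c 2) (.d))),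
    .c 0,
    .mul (.c (-1)) (.mul (.mul (.mul (.mul (.c 2) (.a)) (.add (.c 14) (.a))) (.P)) (.mul (.c 2) (.d))),
    .c 0⟩

/-- free value column 157 -/
def vf157 : VFz := ⟨⟨11, 0, 2, 0, 2⟩, [12760213469220000000000, -129488321148600960000000, 470080654891711920000000, -869978218882419360000000, 923849259814454400000000, -581253324605069760000000, 211173331924094400000000, -40240023942525120000000, 3096428479134480000000],
    .mul (.c (-1)) (.mul (.add (.mul (.sub (.c (-14)) (.mul (.c 2) (.a))) (.P)) (.mul (.mul (.mul (.c 22) (.a)) (.add (.c 14) (.a))) (.s))) (.mul (.c 2) (.pow (.d) 2))),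
    .mul (.c (-1)) (.mul (.add (.mul (.sub (.c (-14)) (.mul (.c 2) (.a))) (.P)) (.mul (.mul (.mul (.c 22) (.a)) (.add (.c 14) (.a))) (.s))) (.mul (.c 2) (.pow (.t) 2))),
    .mul (.c (-1)) (.mul (.mul (.mul (.mul (.c 2) (.a)) (.add (.c 14) (.a))) (.P)) (.mul (.c 2) (.pow (.d) 2))),
    .mul (.c (-1)) (.mul (.mul (.mul (.mul (.c 2) (.a)) (.add (.c 14) (.a))) (.P)) (.mul (.c 2) (.pow (.t) 2)))⟩

/-- free value column 158 -/
def vf158 : VFz := ⟨⟨11, 0, 2, 1, 0⟩, [96166032335825760000000, -862195449596816160000000, 3008492689653475920000000, -5518718374737531600000000, 5934503260513318680000000, -3906935512215523200000000, 1586491550429063040000000, -381612976134319440000000, 43907773879904760000000, -98994127397760000000],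
    .mul (.c (-1)) (.mul (.add (.mul (.sub (.c (-14)) (.mul (.c 2) (.a))) (.P)) (.mul (.mul (.mul (.c 22) (.a)) (.add (.c 14) (.a))) (.s))) (.mul (.c (-2)) (.t))),
    .c 0,
    .mul (.c (-1)) (.mul (.mul (.mul (.mul (.c 2) (.a)) (.add (.c 14) (.a))) (.P)) (.mul (.c (-2)) (.t))),
    .c 0⟩

/-- free value column 159 -/
def vf159 : VFz := ⟨⟨11, 0, 2, 1, 1⟩, [-42230120080274280000000, 380726283547446480000000, -1213247286306873720000000, 1920222863482734720000000, -1789217422549225200000000, 1253574606227958000000000, -842428047493748520000000, 432128342738161440000000, -99529219566178920000000],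
    .mul (.c (-1)) (.mul (.add (.mul (.sub (.c (-14)) (.mul (.c 2) (.a))) (.P)) (.mul (.mul (.mul (.c 22) (.a)) (.add (.c 14) (.a))) (.s))) (.mul (.mul (.c (-2)) (.t)) (.d))),
    .c 0,
    .mul (.c (-1)) (.mul (.mul (.mul (.mul (.c 2) (.a)) (.add (.c 14) (.a))) (.P)) (.mul (.mul (.c (-2)) (.t)) (.d))),
    .c 0⟩

/-- free value column 160 -/
def vf160 : VFz := ⟨⟨11, 0, 2, 2, 0⟩, [464806048427087220000000, -2931890551643447100000000, 7851836213369977500000000, -10379938981468911120000000, 5759540516815224300000000, 815429900501157060000000, -2299204482654930480000000, 717099015294491760000000, 2322321359350860000000],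
    .mul (.c (-1)) (.mul (.add (.mul (.sub (.c (-14)) (.mul (.c 2) (.a))) (.P)) (.mul (.mul (.mul (.c 22) (.a)) (.add (.c 14) (.a))) (.s))) (.add (.mul (.c 2) (.pow (.u) 2)) (.mul (.c (-4)) (.pow (.t) 2)))),
    .c 0,
    .mul (.c (-1)) (.mul (.mul (.mul (.mul (.c 2) (.a)) (.add (.c 14) (.a))) (.P)) (.add (.mul (.c 2) (.pow (.u) 2)) (.mul (.c (-4)) (.pow (.t) 2)))),
    .c 0⟩

/-- free value column 161 -/
def vf161 : VFz := ⟨⟨11, 0, 2, 2, 1⟩, [-127301188865019120000000, 1109453624256201840000000, -4161921061503274020000000, 8377880684391508500000000, -9038725544197641600000000, 4104224762132827080000000, 443980292145833520000000, -707591568360436200000000],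
    .mul (.c (-1)) (.mul (.add (.mul (.sub (.c (-14)) (.mul (.c 2) (.a))) (.P)) (.mul (.mul (.mul (.c 22) (.a)) (.add (.c 14) (.a))) (.s))) (.add (.mul (.mul (.c 2) (.pow (.u) 2)) (.d)) (.mul (.mul (.c (-4)) (.pow (.t) 2)) (.d)))),
    .c 0,
    .mul (.c (-1)) (.mul (.mul (.mul (.mul (.c 2) (.a)) (.add (.c 14) (.a))) (.P)) (.add (.mul (.mul (.c 2) (.pow (.u) 2)) (.d)) (.mul (.mul (.c (-4)) (.pow (.t) 2)) (.d)))),
    .c 0⟩

/-- free value column 162 -/
def vf162 : VFz := ⟨⟨11, 0, 3, 0, 0⟩, [-37884260622267360000000, 284153379954202080000000, -915209868454171920000000, 1616399069885868240000000, -1725178511326881240000000, 1188555800970162240000000, -556353196340860800000000, 170984323630708560000000, -25433739654293880000000, -32998042465920000000],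
    .mul (.c (-1)) (.mul (.add (.mul (.sub (.c (-14)) (.mul (.c 2) (.a))) (.P)) (.mul (.mul (.mul (.c 22) (.a)) (.add (.c 14) (.a))) (.s))) (.mul (.c 6) (.t))),
    .c 0,
    .mul (.c (-1)) (.mul (.mul (.mul (.mul (.c 2) (.a)) (.add (.c 14) (.a))) (.P)) (.mul (.c 6) (.t))),
    .c 0⟩

/-- free value column 163 -/
def vf163 : VFz := ⟨⟨11, 0, 3, 0, 1⟩, [-8810733796605720000000, 137227001046957360000000, -667075333259973960000000, 1559690012046942720000000, -1906179616708592400000000, 1071438692192321040000000, -2265280202629080000000, -271168246968060960000000, 87143505649641000000000],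
    .mul (.c (-1)) (.mul (.add (.mul (.sub (.c (-14)) (.mul (.c 2) (.a))) (.P)) (.mul (.mul (.mul (.c 22) (.a)) (.add (.c 14) (.a))) (.s))) (.mul (.mul (.c 6) (.t)) (.d))),
    .c 0,
    .mul (.c (-1)) (.mul (.mul (.mul (.mul (.c 2) (.a)) (.add (.c 14) (.a))) (.P)) (.mul (.mul (.c 6) (.t)) (.d))),
    .c 0⟩

/-- free value column 164 -/
def vf164 : VFz := ⟨⟨11, 0, 3, 1, 0⟩, [12760213469220000000000, -129488321148600960000000, 470080654891711920000000, -869978218882419360000000, 923849259814454400000000, -581253324605069760000000, 211173331924094400000000, -40240023942525120000000, 3096428479134480000000],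
    .mul (.c (-1)) (.mul (.add (.mul (.sub (.c (-14)) (.mul (.c 2) (.a))) (.P)) (.mul (.mul (.mul (.c 22) (.a)) (.add (.c 14) (.a))) (.s))) (.mul (.c (-2)) (.pow (.u) 2))),
    .c 0,
    .mul (.c (-1)) (.mul (.mul (.mul (.mul (.c 2) (.a)) (.add (.c 14) (.a))) (.P)) (.mul (.c (-2)) (.pow (.u) 2))),
    .c 0⟩

/-- free value column 165 -/
def vf165 : VFz := ⟨⟨11, 0, 4, 0, 0⟩, [-452045834957867220000000, 2802402230494846140000000, -7381755558478265580000000, 9509960762586491760000000, -4835691257000769900000000, -1396683225106226820000000, 2510377814579024880000000, -757339039237016880000000, 774107119783620000000],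
    .mul (.c (-1)) (.mul (.add (.mul (.sub (.c (-14)) (.mul (.c 2) (.a))) (.P)) (.mul (.mul (.mul (.c 22) (.a)) (.add (.c 14) (.a))) (.s))) (.add (.mul (.c 2) (.pow (.u) 2)) (.mul (.c 12) (.pow (.t) 2)))),
    .c 0,
    .mul (.c (-1)) (.mul (.mul (.mul (.mul (.c 2) (.a)) (.add (.c 14) (.a))) (.P)) (.add (.mul (.c 2) (.pow (.u) 2)) (.mul (.c 12) (.pow (.t) 2)))),
    .c 0⟩

/-- free value column 166 -/
def vf166 : VFz := ⟨⟨11, 0, 4, 0, 1⟩, [127301188865019120000000, -1109453624256201840000000, 4161921061503274020000000, -8377880684391508500000000, 9038725544197641600000000, -4104224762132827080000000, -443980292145833520000000, 707591568360436200000000],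
    .mul (.c (-1)) (.mul (.add (.mul (.sub (.c (-14)) (.mul (.c 2) (.a))) (.P)) (.mul (.mul (.mul (.c 22) (.a)) (.add (.c 14) (.a))) (.s))) (.add (.mul (.mul (.c 2) (.pow (.u) 2)) (.d)) (.mul (.mul (.c 12) (.pow (.t) 2)) (.d)))),
    .c 0,
    .mul (.c (-1)) (.mul (.mul (.mul (.mul (.c 2) (.a)) (.add (.c 14) (.a))) (.P)) (.add (.mul (.mul (.c 2) (.pow (.u) 2)) (.d)) (.mul (.mul (.c 12) (.pow (.t) 2)) (.d)))),
    .c 0⟩

/-- free value column 167 -/
def vf167 : VFz := ⟨⟨11, 1, 0, 0, 0⟩, [16477768598215680000000, -106717998252539520000000, 296233695626662080000000, -458756676683968320000000, 432110091987665280000000, -253178615032963200000000, 90643066893489600000000, -18611606724379200000000, 1806272315366400000000, -5998727548800000000],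
    .c 0,
    .c 0,
    .c 0,
    .c 0⟩

/-- free value column 168 -/
def vf168 : VFz := ⟨⟨11, 1, 0, 0, 1⟩, [-16477768598215680000000, 106717998252539520000000, -296233695626662080000000, 458756676683968320000000, -432110091987665280000000, 253178615032963200000000, -90643066893489600000000, 18611606724379200000000, -1806272315366400000000, 5998727548800000000],
    .c 0,
    .c 0,
    .c 0,
    .c 0⟩

/-- free value column 169 -/
def vf169 : VFz := ⟨⟨11, 1, 1, 0, 0⟩, [1995932924858880000000, 13459571843880960000000, -129686707638250560000000, 386056181960003520000000, -595745327869574400000000, 533554210617200640000000, -280246985890159680000000, 80725506742641600000000, -10370368302779520000000, 257985612178560000000],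
    .c 0,
    .c 0,
    .c 0,
    .c 0⟩

/-- free value column 170 -/
def vf170 : VFz := ⟨⟨11, 1, 1, 0, 1⟩, [14481835673356800000000, -120177570096420480000000, 425920403264912640000000, -844812858643971840000000, 1027855419857239680000000, -786732825650163840000000, 370890052783649280000000, -99337113467020800000000, 12176640618145920000000, -263984339727360000000],
    .c 0,
    .c 0,
    .c 0,
    .c 0⟩

/-- free value column 171 -/
def vf171 : VFz := ⟨⟨11, 1, 1, 1, 0⟩, [-32761344775118400000000, 319065427345412160000000, -1153121511415880160000000, 2162362867086824640000000, -2361626229557528640000000, 1555873062035221440000000, -607791690240013440000000, 130148604618560640000000, -12281177267341920000000, 131992169863680000000],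
    .mul (.c (-1)) (.mul (.mul (.add (.mul (.sub (.c (-14)) (.mul (.c 2) (.a))) (.P)) (.mul (.mul (.mul (.c 22) (.a)) (.add (.c 14) (.a))) (.s))) (.w)) (.c (-2))),
    .c 0,
    .mul (.c (-1)) (.mul (.mul (.mul (.mul (.mul (.c 2) (.a)) (.add (.c 14) (.a))) (.w)) (.P)) (.c (-2))),
    .c 0⟩

/-- free value column 172 -/
def vf172 : VFz := ⟨⟨11, 1, 1, 1, 1⟩, [25520426938440000000000, -258976642297201920000000, 940161309783423840000000, -1739956437764838720000000, 1847698519628908800000000, -1162506649210139520000000, 422346663848188800000000, -80480047885050240000000, 6192856958268960000000],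
    .mul (.c (-1)) (.mul (.mul (.add (.mul (.sub (.c (-14)) (.mul (.c 2) (.a))) (.P)) (.mul (.mul (.mul (.c 22) (.a)) (.add (.c 14) (.a))) (.s))) (.w)) (.mul (.c (-2)) (.d))),
    .c 0,
    .mul (.c (-1)) (.mul (.mul (.mul (.mul (.mul (.c 2) (.a)) (.add (.c 14) (.a))) (.w)) (.P)) (.mul (.c (-2)) (.d))),
    .c 0⟩

/-- free value column 173 -/
def vf173 : VFz := ⟨⟨11, 1, 2, 0, 0⟩, [-32761344775118400000000, 319065427345412160000000, -1153121511415880160000000, 2162362867086824640000000, -2361626229557528640000000, 1555873062035221440000000, -607791690240013440000000, 130148604618560640000000, -12281177267341920000000, 131992169863680000000],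
    .mul (.c (-1)) (.mul (.mul (.add (.mul (.sub (.c (-14)) (.mul (.c 2) (.a))) (.P)) (.mul (.mul (.mul (.c 22) (.a)) (.add (.c 14) (.a))) (.s))) (.w)) (.c 2)),
    .c 0,
    .mul (.c (-1)) (.mul (.mul (.mul (.mul (.mul (.c 2) (.a)) (.add (.c 14) (.a))) (.w)) (.P)) (.c 2)),
    .c 0⟩

/-- free value column 174 -/
def vf174 : VFz := ⟨⟨11, 1, 2, 0, 1⟩, [25520426938440000000000, -258976642297201920000000, 940161309783423840000000, -1739956437764838720000000, 1847698519628908800000000, -1162506649210139520000000, 422346663848188800000000, -80480047885050240000000, 6192856958268960000000],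
    .mul (.c (-1)) (.mul (.mul (.add (.mul (.sub (.c (-14)) (.mul (.c 2) (.a))) (.P)) (.mul (.mul (.mul (.c 22) (.a)) (.add (.c 14) (.a))) (.s))) (.w)) (.mul (.c 2) (.d))),
    .c 0,
    .mul (.c (-1)) (.mul (.mul (.mul (.mul (.mul (.c 2) (.a)) (.add (.c 14) (.a))) (.w)) (.P)) (.mul (.c 2) (.d))),
    .c 0⟩

/-- free value column 175 -/
def vf175 : VFz := ⟨⟨11, 1, 2, 1, 0⟩, [-38280640407660000000000, 388464963445802880000000, -1410241964675135760000000, 2609934656647258080000000, -2771547779443363200000000, 1743759973815209280000000, -633519995772283200000000, 120720071827575360000000, -9289285437403440000000],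
    .mul (.c (-1)) (.mul (.mul (.add (.mul (.sub (.c (-14)) (.mul (.c 2) (.a))) (.P)) (.mul (.mul (.mul (.c 22) (.a)) (.add (.c 14) (.a))) (.s))) (.w)) (.mul (.c (-2)) (.t))),
    .c 0,
    .mul (.c (-1)) (.mul (.mul (.mul (.mul (.mul (.c 2) (.a)) (.add (.c 14) (.a))) (.w)) (.P)) (.mul (.c (-2)) (.t))),
    .c 0⟩

/-- free value column 176 -/
def vf176 : VFz := ⟨⟨11, 1, 3, 0, 0⟩, [-12760213469220000000000, 129488321148600960000000, -470080654891711920000000, 869978218882419360000000, -923849259814454400000000, 581253324605069760000000, -211173331924094400000000, 40240023942525120000000, -3096428479134480000000],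
    .mul (.c (-1)) (.mul (.mul (.add (.mul (.sub (.c (-14)) (.mul (.c 2) (.a))) (.P)) (.mul (.mul (.mul (.c 22) (.a)) (.add (.c 14) (.a))) (.s))) (.w)) (.mul (.c 6) (.t))),
    .c 0,
    .mul (.c (-1)) (.mul (.mul (.mul (.mul (.mul (.c 2) (.a)) (.add (.c 14) (.a))) (.w)) (.P)) (.mul (.c 6) (.t))),
    .c 0⟩

/-- free value column 177 -/
def vf177 : VFz := ⟨⟨11, 2, 0, 0, 0⟩, [-8238884299107840000000, 53358999126269760000000, -148116847813331040000000, 229378338341984160000000, -216055045993832640000000, 126589307516481600000000, -45321533446744800000000, 9305803362189600000000, -903136157683200000000, 2999363774400000000],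
    .c 0,
    .c 0,
    .c 0,
    .c 0⟩

/-- free value column 178 -/
def vf178 : VFz := ⟨⟨11, 2, 1, 0, 0⟩, [7240917836678400000000, -60088785048210240000000, 212960201632456320000000, -422406429321985920000000, 513927709928619840000000, -393366412825081920000000, 185445026391824640000000, -49668556733510400000000, 6088320309072960000000, -131992169863680000000],
    .c 0,
    .c 0,
    .c 0,
    .c 0⟩

/-- free value column 179 -/
def vf179 : VFz := ⟨⟨11, 2, 1, 1, 0⟩, [12760213469220000000000, -129488321148600960000000, 470080654891711920000000, -869978218882419360000000, 923849259814454400000000, -581253324605069760000000, 211173331924094400000000, -40240023942525120000000, 3096428479134480000000],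
    .mul (.c (-1)) (.mul (.mul (.add (.mul (.sub (.c (-14)) (.mul (.c 2) (.a))) (.P)) (.mul (.mul (.mul (.c 22) (.a)) (.add (.c 14) (.a))) (.s))) (.pow (.w) 2)) (.c (-2))),
    .c 0,
    .mul (.c (-1)) (.mul (.mul (.mul (.mul (.mul (.c 2) (.a)) (.add (.c 14) (.a))) (.pow (.w) 2)) (.P)) (.c (-2))),
    .c 0⟩

/-- free value column 180 -/
def vf180 : VFz := ⟨⟨11, 2, 2, 0, 0⟩, [12760213469220000000000, -129488321148600960000000, 470080654891711920000000, -869978218882419360000000, 923849259814454400000000, -581253324605069760000000, 211173331924094400000000, -40240023942525120000000, 3096428479134480000000],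
    .mul (.c (-1)) (.mul (.mul (.add (.mul (.sub (.c (-14)) (.mul (.c 2) (.a))) (.P)) (.mul (.mul (.mul (.c 22) (.a)) (.add (.c 14) (.a))) (.s))) (.pow (.w) 2)) (.c 2)),
    .c 0,
    .mul (.c (-1)) (.mul (.mul (.mul (.mul (.mul (.c 2) (.a)) (.add (.c 14) (.a))) (.pow (.w) 2)) (.P)) (.c 2)),
    .c 0⟩

/-- free row column 0 -/
def rf0 : RFz := ⟨⟨0, 8, 0, [(0, 1)]⟩, [-896225238317430000000, 29340655832546730000000, -77730973787336310000000, 18172932717596076000000, 135773359843028859000000, -151309097380698508125000, 33339957575271039000000, 21477727972959748875000, -8168089271800665375000],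
    .mul (.pow (.P) 3) (.mul (.c (-896)) (.T)),
    .c 0⟩

/-- free row column 1 -/
def rf1 : RFz := ⟨⟨0, 8, 1, [(0, 1)]⟩, [7393040468087085000000, 46122422311755483750000, -188792987927105953125000, 197109092819540750625000, 81206868953401261875000, -276302322940438226250000, 165250217994602107500000, -23376290834547866250000, -3889865053109936250000],
    .mul (.pow (.P) 3) (.mul (.mul (.c 896) (.T)) (.t)),
    .c 0⟩

/-- free row column 2 -/
def rf2 : RFz := ⟨⟨0, 9, 0, [(0, 1)]⟩, [11084068802717505000000, -80982524376838791000000, 182445394281486966000000, -124752127218328071000000, -89500891818347635500000, 183684717061250170500000, -118227955329899320500000, 55883486516601145500000, -24820654656121884000000, 5186486737479915000000],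
    .mul (.pow (.P) 2) (.mul (.c (-1008)) (.T)),
    .c 0⟩

/-- free row column 3 -/
def rf3 : RFz := ⟨⟨0, 9, 1, [(0, 1)]⟩, [0, -34902508067797230000000, 77728880059360866000000, 40797201922796214000000, -198262887726449070000000, 63585411179254209000000, 159752560310640927000000, -145387577200865391000000, 38821524796776015000000, -2132605273716540000000],
    .mul (.pow (.P) 2) (.mul (.mul (.c 1008) (.T)) (.t)),
    .c 0⟩

/-- free row column 4 -/
def rf4 : RFz := ⟨⟨0, 9, 2, [(0, 1)]⟩, [0, 0, -15512653345302932805000000, 65087979801300922032000000, -95792898579814190412000000, 39008104781933619556875000, 41109058505686753008000000, -50768522481402161974125000, 19187054790901200653625000, -2318359571653522005000000],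
    .mul (.pow (.P) 2) (.add (.add (.add (.add (.add (.add (.mul (.mul (.c 4) (.P)) (.v)) (.mul (.mul (.c 4) (.P)) (.t))) (.mul (.mul (.c (-30)) (.P)) (.s))) (.mul (.mul (.c (-1008)) (.T)) (.pow (.u) 2))) (.mul (.mul (.c 2016) (.T)) (.pow (.t) 2))) (.mul (.mul (.c 18) (.T)) (.w))) (.mul (.mul (.mul (.c 18) (.T)) (.w)) (.s))),
    .c 0⟩

/-- free row column 5 -/
def rf5 : RFz := ⟨⟨0, 9, 3, [(0, 1)]⟩, [0, 0, 299496788324208720000000, -2739084501977223120000000, 9043167832755411726000000, -13691484262636442766000000, 9712637399160325350000000, -2430566925461676666000000, -385187931558109638000000, 191081432525001984000000],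
    .mul (.pow (.P) 2) (.add (.add (.add (.add (.add (.add (.mul (.mul (.mul (.c 6) (.P)) (.t)) (.v)) (.mul (.mul (.c 6) (.P)) (.pow (.t) 2))) (.mul (.mul (.mul (.c (-102)) (.P)) (.s)) (.t))) (.mul (.mul (.mul (.c (-1008)) (.T)) (.t)) (.pow (.u) 2))) (.mul (.mul (.c 2016) (.T)) (.pow (.t) 3))) (.mul (.mul (.mul (.c 54) (.T)) (.w)) (.t))) (.mul (.mul (.mul (.mul (.c 54) (.T)) (.w)) (.s)) (.t))),
    .c 0⟩

/-- free row column 6 -/
def rf6 : RFz := ⟨⟨0, 10, 0, [(0, 1)]⟩, [-10187843564400075000000, 51641868544292061000000, -104714420494150656000000, 107680285634276880000000, -48580721871443968500000, -35373848482121341500000, 102795075747805770000000, -107680285634276880000000, 58768565435844043500000, -16268020062170719500000, 1919344746344886000000],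
    .mul (.P) (.mul (.c (-1120)) (.T)),
    .c 0⟩

/-- free row column 7 -/
def rf7 : RFz := ⟨⟨0, 10, 1, [(0, 1)]⟩, [0, -40751374257600300000000, 206567474177168244000000, -378106307719002324000000, 224153668359939276000000, 183783420233226450000000, -365649062288424642000000, 227396882757996630000000, -65072080248682878000000, 7677378985379544000000],
    .mul (.P) (.mul (.mul (.c 1120) (.T)) (.t)),
    .c 0⟩

/-- free row column 8 -/
def rf8 : RFz := ⟨⟨0, 10, 2, [(0, 1)]⟩, [0, 0, 9807460949238890805000000, -37215671084498553507000000, 45053164907425235547000000, -4775275621249356069000000, -32409010844546841571500000, 28411090419647614423500000, -11868101458815013366500000, 3746806528618874164500000, -750463795820850426000000],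
    .mul (.P) (.add (.add (.add (.add (.add (.add (.mul (.mul (.c 4) (.P)) (.v)) (.mul (.mul (.c 4) (.P)) (.t))) (.mul (.mul (.c (-30)) (.P)) (.s))) (.mul (.mul (.c (-1120)) (.T)) (.pow (.u) 2))) (.mul (.mul (.c 2240) (.T)) (.pow (.t) 2))) (.mul (.mul (.c 20) (.T)) (.w))) (.mul (.mul (.mul (.c 20) (.T)) (.w)) (.s))),
    .c 0⟩

/-- free row column 9 -/
def rf9 : RFz := ⟨⟨0, 10, 3, [(0, 1)]⟩, [0, 0, 0, 1141038479212808400000000, -5783889276960710832000000, 11728015095344873472000000, -12060191991039010560000000, 6582079328814532872000000, -1822018246963120584000000, 214966611590627232000000],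
    .mul (.P) (.add (.add (.add (.add (.add (.add (.mul (.mul (.mul (.c 6) (.P)) (.t)) (.v)) (.mul (.mul (.c 6) (.P)) (.pow (.t) 2))) (.mul (.mul (.mul (.c (-102)) (.P)) (.s)) (.t))) (.mul (.mul (.mul (.c (-1120)) (.T)) (.t)) (.pow (.u) 2))) (.mul (.mul (.c 2240) (.T)) (.pow (.t) 3))) (.mul (.mul (.mul (.c 60) (.T)) (.w)) (.t))) (.mul (.mul (.mul (.mul (.c 60) (.T)) (.w)) (.s)) (.t))),
    .c 0⟩

/-- free row column 10 -/
def rf10 : RFz := ⟨⟨0, 10, 4, [(0, 1)]⟩, [0, 0, 0, 20718130768780556160000000, -149929029107216593920000000, 483414992719331261904000000, -757675162712560567104000000, 555134276504665000080000000, -129254282529638901264000000, -38455094654157589632000000, 16050840332100166656000000],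
    .mul (.P) (.add (.add (.add (.add (.add (.add (.add (.add (.add (.add (.mul (.mul (.mul (.c 8) (.P)) (.pow (.u) 2)) (.v)) (.mul (.mul (.mul (.c 8) (.P)) (.t)) (.pow (.u) 2))) (.mul (.mul (.mul (.c (-30)) (.P)) (.s)) (.pow (.u) 2))) (.mul (.mul (.mul (.c (-228)) (.P)) (.s)) (.pow (.t) 2))) (.mul (.mul (.c (-1120)) (.T)) (.pow (.u) 4))) (.mul (.mul (.mul (.c 1120) (.T)) (.pow (.t) 2)) (.pow (.u) 2))) (.mul (.mul (.c 1120) (.T)) (.pow (.t) 4))) (.mul (.mul (.mul (.c 20) (.T)) (.w)) (.pow (.u) 2))) (.mul (.mul (.mul (.c 120) (.T)) (.w)) (.pow (.t) 2))) (.mul (.mul (.mul (.mul (.c 20) (.T)) (.w)) (.s)) (.pow (.u) 2))) (.mul (.mul (.mul (.mul (.c 120) (.T)) (.w)) (.s)) (.pow (.t) 2))),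
    .c 0⟩

/-- free row column 11 -/
def rf11 : RFz := ⟨⟨0, 11, 2, [(0, 1)]⟩, [0, 0, 5705192396064042000000000, -28919446384803554160000000, 52934883080660325360000000, -31381513570391498640000000, -25729678832651703000000000, 51190868720379449880000000, -31835563586119528200000000, 9110091234815602920000000, -1074833057953136160000000],
    .add (.add (.add (.add (.add (.add (.mul (.mul (.c 4) (.P)) (.v)) (.mul (.mul (.c 4) (.P)) (.t))) (.mul (.mul (.c (-30)) (.P)) (.s))) (.mul (.mul (.c (-1232)) (.T)) (.pow (.u) 2))) (.mul (.mul (.c 2464) (.T)) (.pow (.t) 2))) (.mul (.mul (.c 22) (.T)) (.w))) (.mul (.mul (.mul (.c 22) (.T)) (.w)) (.s)),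
    .c 0⟩

/-- free row column 12 -/
def rf12 : RFz := ⟨⟨0, 11, 4, [(0, 1)]⟩, [0, 0, 0, 0, 106496924726528784000000000, -539829665849666344320000000, 1094614742232188190720000000, -1125617919163640985600000000, 614327404022689734720000000, -170055036383224587840000000, 20063550415125208320000000],
    .add (.add (.add (.add (.add (.add (.add (.add (.add (.add (.mul (.mul (.mul (.c 8) (.P)) (.pow (.u) 2)) (.v)) (.mul (.mul (.mul (.c 8) (.P)) (.t)) (.pow (.u) 2))) (.mul (.mul (.mul (.c (-30)) (.P)) (.s)) (.pow (.u) 2))) (.mul (.mul (.mul (.c (-228)) (.P)) (.s)) (.pow (.t) 2))) (.mul (.mul (.c (-1232)) (.T)) (.pow (.u) 4))) (.mul (.mul (.mul (.c 1232) (.T)) (.pow (.t) 2)) (.pow (.u) 2))) (.mul (.mul (.c 1232) (.T)) (.pow (.t) 4))) (.mul (.mul (.mul (.c 22) (.T)) (.w)) (.pow (.u) 2))) (.mul (.mul (.mul (.c 132) (.T)) (.w)) (.pow (.t) 2))) (.mul (.mul (.mul (.mul (.c 22) (.T)) (.w)) (.s)) (.pow (.u) 2))) (.mul (.mul (.mul (.mul (.c 132) (.T)) (.w)) (.s)) (.pow (.t) 2)),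
    .c 0⟩

/-- free row column 13 -/
def rf13 : RFz := ⟨⟨0, 8, 0, [(1, 1)]⟩, [0, 9291618326082645000000, -25604486112379986000000, 44608954310833626000000, -126556369297961360625000, 239117533567747939125000, -218367809057191082625000, 91124652413402062875000, -13614527685884776875000],
    .mul (.pow (.P) 3) (.add (.mul (.c (-112)) (.P)) (.mul (.mul (.c (-896)) (.T)) (.s))),
    .c 0⟩

/-- free row column 14 -/
def rf14 : RFz := ⟨⟨0, 8, 1, [(1, 1)]⟩, [0, -23909407471260360000000, 352656936692134200000000, -1221858024882736059000000, 1767767901925648959000000, -1196772509735651598750000, 337528020373278084000000, -12856298209818351750000, -5075660858150027250000],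
    .mul (.pow (.P) 3) (.add (.mul (.mul (.c 112) (.P)) (.t)) (.mul (.mul (.mul (.c 896) (.T)) (.s)) (.t))),
    .c 0⟩

/-- free row column 15 -/
def rf15 : RFz := ⟨⟨0, 9, 2, [(1, 1)]⟩, [0, 0, 2992293804774906765000000, -37184037700950725445000000, 128172097550834723806875000, -202716026541536795791875000, 174817803805410672112500000, -91491831741313353538125000, 30722173584574970531250000, -5311978059673978205625000],
    .mul (.pow (.P) 2) (.add (.add (.add (.add (.add (.add (.add (.add (.add (.add (.mul (.mul (.c (-112)) (.P)) (.pow (.u) 2)) (.mul (.mul (.c 224) (.P)) (.pow (.t) 2))) (.mul (.mul (.mul (.c 4) (.P)) (.s)) (.v))) (.mul (.mul (.mul (.c 4) (.P)) (.s)) (.t))) (.mul (.mul (.c (-30)) (.P)) (.pow (.s) 2))) (.mul (.mul (.c 2) (.P)) (.w))) (.mul (.mul (.mul (.c 2) (.P)) (.w)) (.s))) (.mul (.mul (.mul (.c (-1008)) (.T)) (.s)) (.pow (.u) 2))) (.mul (.mul (.mul (.c 2016) (.T)) (.s)) (.pow (.t) 2))) (.mul (.mul (.mul (.c 18) (.T)) (.w)) (.s))) (.mul (.mul (.mul (.c 18)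 (.T)) (.w)) (.pow (.s) 2))),
    .c 0⟩

/-- free row column 16 -/
def rf16 : RFz := ⟨⟨0, 9, 3, [(1, 1)]⟩, [0, 0, 0, -475671369691390320000000, 8587935970593230160000000, -29594046989156070330000000, 42043876644525066990000000, -27935064109800249570000000, 8026429200979493430000000, -653497328922469290000000],
    .mul (.pow (.P) 2) (.add (.add (.add (.add (.add (.add (.add (.add (.add (.add (.mul (.mul (.mul (.c (-112)) (.P)) (.t)) (.pow (.u) 2)) (.mul (.mul (.c 224) (.P)) (.pow (.t) 3))) (.mul (.mul (.mul (.mul (.c 6) (.P)) (.s)) (.t)) (.v))) (.mul (.mul (.mul (.c 6) (.P)) (.s)) (.pow (.t) 2))) (.mul (.mul (.mul (.c (-102)) (.P)) (.pow (.s) 2)) (.t))) (.mul (.mul (.mul (.c 6) (.P)) (.w)) (.t))) (.mul (.mul (.mul (.mul (.c 6) (.P)) (.w)) (.s)) (.t))) (.mul (.mul (.mul (.mul (.c (-1008)) (.T)) (.s)) (.t)) (.pow (.u) 2))) (.mul (.mul (.mul (.c 2016) (.T)) (.s)) (.pow (.t) 3))) (.mul (.mul (.mul (.mul (.c 54) (.T)) (.w)) (.s)) (.t))) (.mul (.mul (.mul (.mul (.c 54) (.T)) (.w))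 (.pow (.s) 2)) (.t))),
    .c 0⟩

/-- free row column 17 -/
def rf17 : RFz := ⟨⟨0, 10, 4, [(1, 1)]⟩, [0, 0, 0, 0, -32228203418103087360000000, 572779053382498260480000000, -1980662766150129798240000000, 2835669241151721414720000000, -1908301281730362459360000000, 561535653437940716640000000, -48794467226211040320000000],
    .mul (.P) (.add (.add (.add (.add (.add (.add (.add (.add (.add (.add (.add (.add (.add (.add (.add (.add (.add (.mul (.mul (.c (-112)) (.P)) (.pow (.u) 4)) (.mul (.mul (.mul (.c 112) (.P)) (.pow (.t) 2)) (.pow (.u) 2))) (.mul (.mul (.c 112) (.P)) (.pow (.t) 4))) (.mul (.mul (.mul (.mul (.c 8) (.P)) (.s)) (.pow (.u) 2)) (.v))) (.mul (.mul (.mul (.mul (.c 8) (.P)) (.s)) (.t)) (.pow (.u) 2))) (.mul (.mul (.mul (.c (-30)) (.P)) (.pow (.s) 2)) (.pow (.u) 2))) (.mul (.mul (.mul (.c (-228)) (.P)) (.pow (.s) 2)) (.pow (.t) 2))) (.mul (.mul (.mul (.c 2) (.P)) (.w)) (.pow (.u) 2))) (.mul (.mul (.mul (.c 12) (.P)) (.w)) (.pow (.t) 2))) (.mul (.mul (.mul (.mul (.c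 2) (.P)) (.w)) (.s)) (.pow (.u) 2))) (.mul (.mul (.mul (.mul (.c 12) (.P)) (.w)) (.s)) (.pow (.t) 2))) (.mul (.mul (.mul (.c (-1120)) (.T)) (.s)) (.pow (.u) 4))) (.mul (.mul (.mul (.mul (.c 1120) (.T)) (.s)) (.pow (.t) 2)) (.pow (.u) 2))) (.mul (.mul (.mul (.c 1120) (.T)) (.s)) (.pow (.t) 4))) (.mul (.mul (.mul (.mul (.c 20) (.T)) (.w)) (.s)) (.pow (.u) 2))) (.mul (.mul (.mul (.mul (.c 120) (.T)) (.w)) (.s)) (.pow (.t) 2))) (.mul (.mul (.mul (.mul (.c 20) (.T)) (.w)) (.pow (.s) 2)) (.pow (.u) 2))) (.mul (.mul (.mul (.mul (.c 120) (.T)) (.w)) (.pow (.s) 2)) (.pow (.t) 2))),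
    .c 0⟩

/-- free row column 18 -/
def rf18 : RFz := ⟨⟨0, 8, 0, [(2, 1)]⟩, [0, 0, 19479461890482720000000, -70639807855402737000000, 39167137150828407000000, 152257477130346065625000, -273065728253401345500000, 169035348814069114125000, -36233596820842966125000],
    .mul (.mul (.s) (.pow (.P) 3)) (.add (.mul (.c (-224)) (.P)) (.mul (.mul (.c (-896)) (.T)) (.s))),
    .c 0⟩

/-- free row column 19 -/
def rf19 : RFz := ⟨⟨0, 8, 1, [(2, 1)]⟩, [0, 0, 18718549270263045000000, -370090620273051405000000, 1251034746972808336875000, -1700281875938383591875000, 1044028454119717854375000, -253133120107261445625000, 9724662632774840625000],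
    .mul (.mul (.s) (.pow (.P) 3)) (.add (.mul (.mul (.c 224) (.P)) (.t)) (.mul (.mul (.mul (.c 896) (.T)) (.s)) (.t))),
    .c 0⟩

/-- free row column 20 -/
def rf20 : RFz := ⟨⟨0, 9, 2, [(2, 1)]⟩, [0, 0, 0, -3642566768499843135000000, 67953120639790682205000000, -232511692623293360930625000, 325078812792342650041875000, -210155202288513251713125000, 57192434108995531224375000, -3915149175955150835625000],
    .mul (.mul (.s) (.pow (.P) 2)) (.add (.add (.add (.add (.add (.add (.add (.add (.add (.add (.mul (.mul (.c (-224)) (.P)) (.pow (.u) 2)) (.mul (.mul (.c 448) (.P)) (.pow (.t) 2))) (.mul (.mul (.mul (.c 4) (.P)) (.s)) (.v))) (.mul (.mul (.mul (.c 4) (.P)) (.s)) (.t))) (.mul (.mul (.c (-30)) (.P)) (.pow (.s) 2))) (.mul (.mul (.c 4) (.P)) (.w))) (.mul (.mul (.mul (.c 4) (.P)) (.w)) (.s))) (.mul (.mul (.mul (.c (-1008)) (.T)) (.s)) (.pow (.u) 2))) (.mul (.mul (.mul (.c 2016) (.T)) (.s)) (.pow (.t) 2))) (.mul (.mul (.mul (.c 18) (.T)) (.w)) (.s))) (.mul (.mul (.mul (.c 18)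 (.T)) (.w)) (.pow (.s) 2))),
    .c 0⟩

/-- free row column 21 -/
def rf21 : RFz := ⟨⟨0, 9, 3, [(2, 1)]⟩, [0, 0, 0, 0, 176174581367181600000000, -3667151736881942400000000, 12269254055724470700000000, -16264654373543763600000000, 9509830632217295100000000, -2023449655456863900000000],
    .mul (.mul (.s) (.pow (.P) 2)) (.add (.add (.add (.add (.add (.add (.add (.add (.add (.add (.mul (.mul (.mul (.c (-224)) (.P)) (.t)) (.pow (.u) 2)) (.mul (.mul (.c 448) (.P)) (.pow (.t) 3))) (.mul (.mul (.mul (.mul (.c 6) (.P)) (.s)) (.t)) (.v))) (.mul (.mul (.mul (.c 6) (.P)) (.s)) (.pow (.t) 2))) (.mul (.mul (.mul (.c (-102)) (.P)) (.pow (.s) 2)) (.t))) (.mul (.mul (.mul (.c 12) (.P)) (.w)) (.t))) (.mul (.mul (.mul (.mul (.c 12) (.P)) (.w)) (.s)) (.t))) (.mul (.mul (.mul (.mul (.c (-1008)) (.T)) (.s)) (.t)) (.pow (.u) 2))) (.mul (.mul (.mul (.c 2016) (.T)) (.s)) (.pow (.t) 3))) (.mul (.mul (.mul (.mul (.c 54) (.T)) (.w)) (.s)) (.t))) (.mul (.mul (.mul (.mul (.c 54) (.T)) (.w)) (.pow (.s)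 2)) (.t))),
    .c 0⟩

/-- free row column 22 -/
def rf22 : RFz := ⟨⟨0, 10, 4, [(2, 1)]⟩, [0, 0, 0, 0, 0, 11510072649322531200000000, -239587246809620236800000000, 801591264973998752400000000, -1062624085738192555200000000, 621308934638196613200000000, -132198710823181774800000000],
    .mul (.mul (.s) (.P)) (.add (.add (.add (.add (.add (.add (.add (.add (.add (.add (.add (.add (.add (.add (.add (.add (.add (.mul (.mul (.c (-224)) (.P)) (.pow (.u) 4)) (.mul (.mul (.mul (.c 224) (.P)) (.pow (.t) 2)) (.pow (.u) 2))) (.mul (.mul (.c 224) (.P)) (.pow (.t) 4))) (.mul (.mul (.mul (.mul (.c 8) (.P)) (.s)) (.pow (.u) 2)) (.v))) (.mul (.mul (.mul (.mul (.c 8) (.P)) (.s)) (.t)) (.pow (.u) 2))) (.mul (.mul (.mul (.c (-30)) (.P)) (.pow (.s) 2)) (.pow (.u) 2))) (.mul (.mul (.mul (.c (-228)) (.P)) (.pow (.s) 2)) (.pow (.t) 2))) (.mul (.mul (.mul (.c 4) (.P)) (.w)) (.pow (.u) 2))) (.mul (.mul (.mul (.c 24) (.P)) (.w)) (.pow (.t) 2))) (.mul (.mul (.mul (.mul (.c 4) (.P)) (.w)) (.s)) (.pow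 (.u) 2))) (.mul (.mul (.mul (.mul (.c 24) (.P)) (.w)) (.s)) (.pow (.t) 2))) (.mul (.mul (.mul (.c (-1120)) (.T)) (.s)) (.pow (.u) 4))) (.mul (.mul (.mul (.mul (.c 1120) (.T)) (.s)) (.pow (.t) 2)) (.pow (.u) 2))) (.mul (.mul (.mul (.c 1120) (.T)) (.s)) (.pow (.t) 4))) (.mul (.mul (.mul (.mul (.c 20) (.T)) (.w)) (.s)) (.pow (.u) 2))) (.mul (.mul (.mul (.mul (.c 120) (.T)) (.w)) (.s)) (.pow (.t) 2))) (.mul (.mul (.mul (.mul (.c 20) (.T)) (.w)) (.pow (.s) 2)) (.pow (.u) 2))) (.mul (.mul (.mul (.mul (.c 120) (.T)) (.w)) (.pow (.s) 2)) (.pow (.t) 2))),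
    .c 0⟩

/-- free row column 23 -/
def rf23 : RFz := ⟨⟨0, 8, 0, [(3, 1)]⟩, [0, 0, -2674078467180435000000, 43935573515279355000000, -154685651191353568125000, 230171627419475923125000, -164511013192704950625000, 53598031656452049375000, -5834797579664904375000],
    .mul (.mul (.pow (.s) 2) (.pow (.P) 3)) (.add (.mul (.c (-336)) (.P)) (.mul (.mul (.c (-896)) (.T)) (.s))),
    .c 0⟩

/-- free row column 24 -/
def rf24 : RFz := ⟨⟨0, 8, 1, [(3, 1)]⟩, [0, 0, 0, -4404364534179540000000, 91678793422048560000000, -306731351393111767500000, 406616359338594090000000, -237745765805432377500000, 50586241386421597500000],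
    .mul (.mul (.pow (.s) 2) (.pow (.P) 3)) (.add (.mul (.mul (.c 336) (.P)) (.t)) (.mul (.mul (.mul (.c 896) (.T)) (.s)) (.t))),
    .c 0⟩

/-- free row column 25 -/
def rf25 : RFz := ⟨⟨0, 9, 2, [(3, 1)]⟩, [0, 0, 0, 0, 1143561791553044850000000, -23803743863510465400000000, 79640604450997233918750000, -105575033299699251225000000, 61728989907339049443750000, -13134356245688750493750000],
    .mul (.mul (.pow (.s) 2) (.pow (.P) 2)) (.add (.add (.add (.add (.add (.add (.add (.add (.add (.add (.mul (.mul (.c (-336)) (.P)) (.pow (.u) 2)) (.mul (.mul (.c 672) (.P)) (.pow (.t) 2))) (.mul (.mul (.mul (.c 4) (.P)) (.s)) (.v))) (.mul (.mul (.mul (.c 4) (.P)) (.s)) (.t))) (.mul (.mul (.c (-30)) (.P)) (.pow (.s) 2))) (.mul (.mul (.c 6) (.P)) (.w))) (.mul (.mul (.mul (.c 6) (.P)) (.w)) (.s))) (.mul (.mul (.mul (.c (-1008)) (.T)) (.s)) (.pow (.u) 2))) (.mul (.mul (.mul (.c 2016) (.T)) (.s)) (.pow (.t) 2))) (.mul (.mul (.mul (.c 18) (.T)) (.w)) (.s))) (.mul (.mul (.mul (.c 18) (.T)) (.w))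 (.pow (.s) 2))),
    .c 0⟩

/-- free row column 26 -/
def rf26 : RFz := ⟨⟨0, 8, 0, [(4, 1)]⟩, [0, 0, 0, 1572987333635550000000, -32742426222160200000000, 109546911211825631250000, -145220128335212175000000, 84909202073368706250000, -18066514780864856250000],
    .mul (.mul (.pow (.s) 3) (.pow (.P) 3)) (.add (.mul (.c (-448)) (.P)) (.mul (.mul (.c (-896)) (.T)) (.s))),
    .c 0⟩

/-- free row column 27 -/
def rf27 : RFz := ⟨⟨1, 7, 0, [(0, 1)]⟩, [722126377384246406250, -3278241952420073625000, 5959933875956225812500, -3597884748108246093750, -2580139744069063640625, 4865233893984506109375, -2468465408532430125000, 416771255690350312500],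
    .c 0,
    .c 0⟩

/-- free row column 28 -/
def rf28 : RFz := ⟨⟨1, 8, 0, [(0, 1)]⟩, [-1377393494249105156250, 5753462916554789625000, -8007518619739733062500, 706509350050086843750, 8564642080949633765625, -7416405937748007703125, 1062971443348085250000, 1043531971857783843750, -329799711023533406250],
    .c 0,
    .c 0⟩

/-- free row column 29 -/
def rf29 : RFz := ⟨⟨1, 8, 1, [(0, 1)]⟩, [8808729068359080000000, -171047926860153840000000, 759930683454476478000000, -1379634142525028208000000, 932482552874208485625000, 338833769103722316375000, -871444583195338285875000, 461811599097862285125000, -79742233588753693125000],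
    .mul (.pow (.P) 3) (.add (.add (.mul (.c (-1792)) (.P)) (.mul (.mul (.c 896) (.T)) (.v))) (.mul (.mul (.c 896) (.T)) (.t))),
    .mul (.pow (.P) 3) (.mul (.c (-2)) (.P))⟩

/-- free row column 30 -/
def rf30 : RFz := ⟨⟨1, 9, 0, [(0, 1)]⟩, [291415560993427500000, -591543832783396500000, -964512876407582250000, 3087719672316646500000, -1050067403262911250000, -2822003365652950500000, 2434438380340417500000, 140595856923989250000, -711273661663351500000, 185231669195711250000],
    .c 0,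
    .c 0⟩

/-- free row column 31 -/
def rf31 : RFz := ⟨⟨1, 9, 1, [(0, 1)]⟩, [-8808729068359080000000, 325987396745698170000000, -1318831404269594229000000, 1773285569860302099000000, -59126650547994918000000, -1950272531722345068000000, 1581398649900233262000000, -165411814709538400500000, -253161924094531588500000, 74941437906129753000000],
    .mul (.pow (.P) 2) (.add (.add (.mul (.c (-1792)) (.P)) (.mul (.mul (.c 1008) (.T)) (.v))) (.mul (.mul (.c 1008) (.T)) (.t))),
    .mul (.pow (.P) 2) (.mul (.c (-2)) (.P))⟩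

/-- free row column 32 -/
def rf32 : RFz := ⟨⟨1, 9, 3, [(0, 1)]⟩, [0, 0, -149748394162104360000000, 4642091848589708520000000, -16779591958115951559000000, 21554674189412366079000000, -6473909031871267035000000, -8606441689151911731000000, 7510407998460995187000000, -1697471579234737656000000],
    .mul (.pow (.P) 2) (.add (.add (.add (.add (.add (.add (.add (.add (.add (.add (.mul (.mul (.c (-6)) (.P)) (.pow (.v) 2)) (.mul (.mul (.c (-2016)) (.P)) (.pow (.u) 2))) (.mul (.mul (.mul (.c (-12)) (.P)) (.t)) (.v))) (.mul (.mul (.c (-12102)) (.P)) (.pow (.t) 2))) (.mul (.mul (.mul (.c (-12)) (.P)) (.s)) (.v))) (.mul (.mul (.mul (.c (-12)) (.P)) (.s)) (.t))) (.mul (.mul (.c 6) (.P)) (.w))) (.mul (.mul (.mul (.c 6) (.P)) (.w)) (.s))) (.mul (.mul (.mul (.c 1008) (.T)) (.pow (.u) 2)) (.v))) (.mul (.mul (.mul (.c 1008) (.T)) (.t)) (.pow (.u) 2))) (.mul (.mul (.mul (.c (-6048)) (.T)) (.s)) (.pow (.t) 2))),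
    .mul (.pow (.P) 2) (.mul (.mul (.c (-6)) (.P)) (.pow (.t) 2))⟩

/-- free row column 33 -/
def rf33 : RFz := ⟨⟨1, 10, 0, [(0, 1)]⟩, [363851555871431250000, -1844352448010430750000, 3012097620191089500000, -157019590917598500000, -5016872571002042625000, 5266095809360392125000, -389405915399733750000, -2683723053926265750000, 1961781283684081125000, -581000716506097125000, 68548026655174500000],
    .c 0,
    .c 0⟩

/-- free row column 34 -/
def rf34 : RFz := ⟨⟨1, 10, 1, [(0, 1)]⟩, [0, -53061034241543580000000, 45785308772831796000000, 432110398714211889000000, -890182191603764556000000, 172725275505640410000000, 893969379288755847000000, -727176913224783525000000, -2894115820503852000000, 175402273246474806000000, -46678380637319235000000],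
    .mul (.P) (.add (.add (.mul (.c (-1792)) (.P)) (.mul (.mul (.c 1120) (.T)) (.v))) (.mul (.mul (.c 1120) (.T)) (.t))),
    .mul (.P) (.mul (.c (-2)) (.P))⟩

/-- free row column 35 -/
def rf35 : RFz := ⟨⟨1, 10, 3, [(0, 1)]⟩, [0, 0, 0, -1941338038519487160000000, 5674566827893452552000000, -2697757775964252792000000, -5711915153644902720000000, 4814727172249652028000000, 2443701806348631444000000, -3453314610259719072000000, 871329771896625720000000],
    .mul (.P) (.add (.add (.add (.add (.add (.add (.add (.add (.add (.add (.mul (.mul (.c (-6)) (.P)) (.pow (.v) 2)) (.mul (.mul (.c (-2016)) (.P)) (.pow (.u) 2))) (.mul (.mul (.mul (.c (-12)) (.P)) (.t)) (.v))) (.mul (.mul (.c (-12102)) (.P)) (.pow (.t) 2))) (.mul (.mul (.mul (.c (-12)) (.P)) (.s)) (.v))) (.mul (.mul (.mul (.c (-12)) (.P)) (.s)) (.t))) (.mul (.mul (.c 6) (.P)) (.w))) (.mul (.mul (.mul (.c 6) (.P)) (.w)) (.s))) (.mul (.mul (.mul (.c 1120) (.T)) (.pow (.u) 2)) (.v))) (.mul (.mul (.mul (.c 1120) (.T)) (.t)) (.pow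 (.u) 2))) (.mul (.mul (.mul (.c (-6720)) (.T)) (.s)) (.pow (.t) 2))),
    .mul (.P) (.mul (.mul (.c (-6)) (.P)) (.pow (.t) 2))⟩

/-- free row column 36 -/
def rf36 : RFz := ⟨⟨1, 11, 1, [(0, 1)]⟩, [0, -101878435644000750000000, 516418685442920610000000, -843387333653505060000000, 43965485456927580000000, 1404724319880571935000000, -1474506826620909795000000, 109033656311925450000000, 751442455099354410000000, -549298759431542715000000, 162680200621707195000000, -19193447463448860000000],
    .add (.add (.mul (.c (-1792)) (.P)) (.mul (.mul (.c 1232) (.T)) (.v))) (.mul (.mul (.c 1232) (.T)) (.t)),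
    .mul (.c (-2)) (.P)⟩

/-- free row column 37 -/
def rf37 : RFz := ⟨⟨1, 11, 3, [(0, 1)]⟩, [0, 0, 0, -1901730798688014000000000, 9639815461601184720000000, -17644961026886775120000000, 10460504523463832880000000, 8576559610883901000000000, -17063622906793149960000000, 10611854528706509400000000, -3036697078271867640000000, 358277685984378720000000],
    .add (.add (.add (.add (.add (.add (.add (.add (.add (.add (.mul (.mul (.c (-6)) (.P)) (.pow (.v) 2)) (.mul (.mul (.c (-2016)) (.P)) (.pow (.u) 2))) (.mul (.mul (.mul (.c (-12)) (.P)) (.t)) (.v))) (.mul (.mul (.c (-12102)) (.P)) (.pow (.t) 2))) (.mul (.mul (.mul (.c (-12)) (.P)) (.s)) (.v))) (.mul (.mul (.mul (.c (-12)) (.P)) (.s)) (.t))) (.mul (.mul (.c 6) (.P)) (.w))) (.mul (.mul (.mul (.c 6) (.P)) (.w)) (.s))) (.mul (.mul (.mul (.c 1232) (.T)) (.pow (.u) 2)) (.v))) (.mul (.mul (.mul (.c 1232) (.T)) (.t)) (.pow (.u) 2))) (.mul (.mul (.mul (.c (-7392)) (.T)) (.s)) (.pow (.t) 2)),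
    .mul (.mul (.c (-6)) (.P)) (.pow (.t) 2)⟩

/-- free row column 38 -/
def rf38 : RFz := ⟨⟨1, 7, 0, [(1, 1)]⟩, [-132018579787269375000, 230355204891564375000, -821384529163895390625, 4033305586708484765625, -9567877740060460078125, 10893742221572616796875, -5884513179390213046875, 1203420228277426875000],
    .c 0,
    .c 0⟩

/-- free row column 39 -/
def rf39 : RFz := ⟨⟨1, 8, 1, [(1, 1)]⟩, [0, 8808729068359080000000, 85769978669391240000000, -285659262197849988000000, -97910774761532922000000, 1240303404645025126875000, -1725302790938824429500000, 973632105450360318375000, -199636767921532701375000],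
    .mul (.pow (.P) 3) (.add (.add (.add (.add (.mul (.mul (.c 112) (.P)) (.v)) (.mul (.mul (.c 112) (.P)) (.t))) (.mul (.mul (.c (-1792)) (.P)) (.s))) (.mul (.mul (.mul (.c 896) (.T)) (.s)) (.v))) (.mul (.mul (.mul (.c 896) (.T)) (.s)) (.t))),
    .mul (.pow (.P) 3) (.mul (.mul (.c (-2)) (.P)) (.s))⟩

/-- free row column 40 -/
def rf40 : RFz := ⟨⟨1, 9, 3, [(1, 1)]⟩, [0, 0, 0, -132130936025386200000000, 1655885703504778200000000, -6257824740710019225000000, 10639582310121910425000000, -9014474143174265325000000, 3653516517630948675000000, -544581107435391075000000],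
    .mul (.pow (.P) 2) (.add (.add (.add (.add (.add (.add (.add (.add (.add (.add (.add (.add (.mul (.mul (.mul (.c 112) (.P)) (.pow (.u) 2)) (.v)) (.mul (.mul (.mul (.c 112) (.P)) (.t)) (.pow (.u) 2))) (.mul (.mul (.mul (.c (-6)) (.P)) (.s)) (.pow (.v) 2))) (.mul (.mul (.mul (.c (-2016)) (.P)) (.s)) (.pow (.u) 2))) (.mul (.mul (.mul (.mul (.c (-12)) (.P)) (.s)) (.t)) (.v))) (.mul (.mul (.mul (.c (-12774)) (.P)) (.s)) (.pow (.t) 2))) (.mul (.mul (.mul (.c (-12)) (.P)) (.pow (.s) 2)) (.v))) (.mul (.mul (.mul (.c (-12)) (.P)) (.pow (.s) 2)) (.t))) (.mul (.mul (.mul (.c 6) (.P)) (.w)) (.s))) (.mul (.mul (.mul (.c 6) (.P)) (.w)) (.pow (.s) 2))) (.mul (.mul (.mul (.mul (.c 1008) (.T)) (.s)) (.pow (.u) 2)) (.v))) (.mul (.mul (.mul (.mul (.c 1008) (.T)) (.s)) (.t)) (.pow (.u) 2))) (.mul (.mul (.mul (.c (-6048)) (.T)) (.pow (.s) 2)) (.pow (.t) 2))),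
    .mul (.pow (.P) 2) (.mul (.mul (.mul (.c (-6)) (.P)) (.s)) (.pow (.t) 2))⟩

/-- free row column 41 -/
def rf41 : RFz := ⟨⟨1, 7, 0, [(2, 1)]⟩, [0, 294935125056665625000, -5371395025665020625000, 18474658491763436484375, -26135152049434232109375, 17240826974159963671875, -4885891294143111328125, 382040317716154453125],
    .c 0,
    .c 0⟩

/-- free row column 42 -/
def rf42 : RFz := ⟨⟨1, 8, 1, [(2, 1)]⟩, [0, 0, -39324683340888750000000, 701295144930075150000000, -2423231801608140731250000, 3463477300876456631250000, -2324383748513999156250000, 680512434811439343750000, -58347975796649043750000],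
    .mul (.mul (.s) (.pow (.P) 3)) (.add (.add (.add (.add (.mul (.mul (.c 224) (.P)) (.v)) (.mul (.mul (.c 224) (.P)) (.t))) (.mul (.mul (.c (-1792)) (.P)) (.s))) (.mul (.mul (.mul (.c 896) (.T)) (.s)) (.v))) (.mul (.mul (.mul (.c 896) (.T)) (.s)) (.t))),
    .mul (.mul (.s) (.pow (.P) 3)) (.mul (.mul (.c (-2)) (.P)) (.s))⟩

/-- free row column 43 -/
def rf43 : RFz := ⟨⟨1, 9, 3, [(2, 1)]⟩, [0, 0, 0, 0, 117449720911454400000000, -2444767824587961600000000, 8179502703816313800000000, -10843102915695842400000000, 6339887088144863400000000, -1348966436971242600000000],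
    .mul (.mul (.s) (.pow (.P) 2)) (.add (.add (.add (.add (.add (.add (.add (.add (.add (.add (.add (.add (.mul (.mul (.mul (.c 224) (.P)) (.pow (.u) 2)) (.v)) (.mul (.mul (.mul (.c 224) (.P)) (.t)) (.pow (.u) 2))) (.mul (.mul (.mul (.c (-6)) (.P)) (.s)) (.pow (.v) 2))) (.mul (.mul (.mul (.c (-2016)) (.P)) (.s)) (.pow (.u) 2))) (.mul (.mul (.mul (.mul (.c (-12)) (.P)) (.s)) (.t)) (.v))) (.mul (.mul (.mul (.c (-13446)) (.P)) (.s)) (.pow (.t) 2))) (.mul (.mul (.mul (.c (-12)) (.P)) (.pow (.s) 2)) (.v))) (.mul (.mul (.mul (.c (-12)) (.P)) (.pow (.s) 2)) (.t))) (.mul (.mul (.mul (.c 6) (.P)) (.w)) (.s))) (.mul (.mul (.mul (.c 6) (.P)) (.w)) (.pow (.s) 2))) (.mul (.mul (.mul (.mul (.c 1008) (.T)) (.s)) (.pow (.u) 2)) (.v))) (.mul (.mul (.mul (.mul (.c 1008) (.T)) (.s)) (.t)) (.pow (.u) 2))) (.mul (.mul (.mul (.c (-6048)) (.T)) (.pow (.s) 2)) (.pow (.t) 2))),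
    .mul (.mul (.s) (.pow (.P) 2)) (.mul (.mul (.mul (.c (-6)) (.P)) (.s)) (.pow (.t) 2))⟩

/-- free row column 44 -/
def rf44 : RFz := ⟨⟨1, 7, 0, [(3, 1)]⟩, [0, 0, -134827485740190000000, 2806493676185160000000, -9389735246727911250000, 12447439571589615000000, -7277931606288746250000, 1548558409788416250000],
    .c 0,
    .c 0⟩

/-- free row column 45 -/
def rf45 : RFz := ⟨⟨1, 8, 1, [(3, 1)]⟩, [0, 0, 0, 17302860669991050000000, -360166688443762200000000, 1205016023330081943750000, -1597421411687333925000000, 934001222807055768750000, -198731662589513418750000],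
    .mul (.mul (.pow (.s) 2) (.pow (.P) 3)) (.add (.add (.add (.add (.mul (.mul (.c 336) (.P)) (.v)) (.mul (.mul (.c 336) (.P)) (.t))) (.mul (.mul (.c (-1792)) (.P)) (.s))) (.mul (.mul (.mul (.c 896) (.T)) (.s)) (.v))) (.mul (.mul (.mul (.c 896) (.T)) (.s)) (.t))),
    .mul (.mul (.pow (.s) 2) (.pow (.P) 3)) (.mul (.mul (.c (-2)) (.P)) (.s))⟩

/-- free row column 46 -/
def rf46 : RFz := ⟨⟨3, 8, 0, [(0, 1)]⟩, [0, 20847201888698640000000, -56392993677838230000000, 12788877786996780000000, 77028359571540483750000, -45045522996361413750000, -46939606275670211250000, 49383216014136558750000, -11669595159329808750000],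
    .mul (.pow (.P) 3) (.add (.mul (.c 1680) (.P)) (.mul (.mul (.c 896) (.T)) (.s))),
    .c 0⟩

/-- free row column 47 -/
def rf47 : RFz := ⟨⟨3, 8, 1, [(0, 1)]⟩, [0, -2202182267089770000000],
    .mul (.pow (.P) 3) (.add (.mul (.mul (.c 1792) (.P)) (.t)) (.mul (.mul (.mul (.c 896) (.T)) (.s)) (.t))),
    .c 0⟩

/-- free row column 48 -/
def rf48 : RFz := ⟨⟨3, 9, 0, [(0, 1)]⟩, [0, -471514759898490000000, -47205340877473002000000, 177942895844315742000000, -192528805679865900000000, -44783719507550583000000, 232230056108830731000000, -167442489749597958000000, 46524129168672540000000, -4265210547433080000000],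
    .mul (.pow (.P) 2) (.add (.mul (.c 1680) (.P)) (.mul (.mul (.c 1008) (.T)) (.s))),
    .c 0⟩

/-- free row column 49 -/
def rf49 : RFz := ⟨⟨3, 9, 2, [(0, 1)]⟩, [0, 0, -17932055603445270000000, 11624887838615751000000000, -45645003920572082696250000, 61836379471223714306250000, -22802501618161781591250000, -19840623906744846686250000, 19352568879046213886250000, -4507654371651137700000000],
    .mul (.pow (.P) 2) (.add (.add (.add (.add (.add (.add (.add (.add (.add (.add (.add (.add (.mul (.mul (.c 1904) (.P)) (.pow (.u) 2)) (.mul (.mul (.mul (.c 34) (.P)) (.s)) (.v))) (.mul (.mul (.mul (.c 34) (.P)) (.s)) (.t))) (.mul (.mul (.c 30) (.P)) (.pow (.s) 2))) (.mul (.mul (.c (-4)) (.P)) (.w))) (.mul (.mul (.mul (.c (-4)) (.P)) (.w)) (.s))) (.mul (.mul (.mul (.c 1008) (.T)) (.s)) (.pow (.u) 2))) (.mul (.mul (.mul (.c (-18)) (.T)) (.w)) (.v))) (.mul (.mul (.mul (.c (-18)) (.T)) (.w)) (.t))) (.mul (.mul (.mul (.c (-18)) (.T)) (.w)) (.s))) (.mul (.mul (.mul (.mul (.c (-18)) (.T))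 (.w)) (.s)) (.v))) (.mul (.mul (.mul (.mul (.c (-18)) (.T)) (.w)) (.s)) (.t))) (.mul (.mul (.mul (.c (-18)) (.T)) (.w)) (.pow (.s) 2))),
    .c 0⟩

/-- free row column 50 -/
def rf50 : RFz := ⟨⟨3, 9, 3, [(0, 1)]⟩, [0, 0, 0, -123322206957027120000000, 1399562910050235840000000, -5448087651184906770000000, 9722422360108994760000000, -8664456022830820170000000, 3694739319927325530000000, -580886514597750480000000],
    .mul (.pow (.P) 2) (.add (.add (.add (.add (.add (.add (.add (.add (.add (.add (.add (.add (.add (.add (.mul (.mul (.mul (.c 6048) (.P)) (.t)) (.pow (.u) 2)) (.mul (.mul (.c (-4032)) (.P)) (.pow (.t) 3))) (.mul (.mul (.mul (.mul (.c 108) (.P)) (.s)) (.t)) (.v))) (.mul (.mul (.mul (.c 108) (.P)) (.s)) (.pow (.t) 2))) (.mul (.mul (.mul (.c 102) (.P)) (.pow (.s) 2)) (.t))) (.mul (.mul (.mul (.c (-6)) (.P)) (.w)) (.t))) (.mul (.mul (.mul (.mul (.c (-6)) (.P)) (.w)) (.s)) (.t))) (.mul (.mul (.mul (.mul (.c 3024) (.T)) (.s)) (.t)) (.pow (.u) 2))) (.mul (.mul (.mul (.c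 (-2016)) (.T)) (.s)) (.pow (.t) 3))) (.mul (.mul (.mul (.mul (.c (-54)) (.T)) (.w)) (.t)) (.v))) (.mul (.mul (.mul (.c (-54)) (.T)) (.w)) (.pow (.t) 2))) (.mul (.mul (.mul (.mul (.c (-54)) (.T)) (.w)) (.s)) (.t))) (.mul (.mul (.mul (.mul (.mul (.c (-54)) (.T)) (.w)) (.s)) (.t)) (.v))) (.mul (.mul (.mul (.mul (.c (-54)) (.T)) (.w)) (.s)) (.pow (.t) 2))) (.mul (.mul (.mul (.mul (.c (-54)) (.T)) (.w)) (.pow (.s) 2)) (.t))),
    .c 0⟩

/-- free row column 51 -/
def rf51 : RFz := ⟨⟨3, 10, 0, [(0, 1)]⟩, [0, -20375687128800150000000, 103283737088584122000000, -189053153859501162000000, 112076834179969638000000, 91891710116613225000000, -182824531144212321000000, 113698441378998315000000, -32536040124341439000000, 3838689492689772000000],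
    .mul (.P) (.add (.mul (.c 1680) (.P)) (.mul (.mul (.c 1120) (.T)) (.s))),
    .c 0⟩

/-- free row column 52 -/
def rf52 : RFz := ⟨⟨3, 10, 2, [(0, 1)]⟩, [0, 0, 0, -5824014115558461480000000, 17023700483680357656000000, -8093273327892758376000000, -17135745460934708160000000, 14444181516748956084000000, 7331105419045894332000000, -10359943830779157216000000, 2613989315689877160000000],
    .mul (.P) (.add (.add (.add (.add (.add (.add (.add (.add (.add (.add (.add (.add (.mul (.mul (.c 1904) (.P)) (.pow (.u) 2)) (.mul (.mul (.mul (.c 34) (.P)) (.s)) (.v))) (.mul (.mul (.mul (.c 34) (.P)) (.s)) (.t))) (.mul (.mul (.c 30) (.P)) (.pow (.s) 2))) (.mul (.mul (.c (-4)) (.P)) (.w))) (.mul (.mul (.mul (.c (-4)) (.P)) (.w)) (.s))) (.mul (.mul (.mul (.c 1120) (.T)) (.s)) (.pow (.u) 2))) (.mul (.mul (.mul (.c (-20)) (.T)) (.w)) (.v))) (.mul (.mul (.mul (.c (-20)) (.T)) (.w)) (.t))) (.mul (.mul (.mul (.c (-20)) (.T)) (.w)) (.s))) (.mul (.mul (.mul (.mul (.c (-20)) (.T)) (.w)) (.s))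 (.v))) (.mul (.mul (.mul (.mul (.c (-20)) (.T)) (.w)) (.s)) (.t))) (.mul (.mul (.mul (.c (-20)) (.T)) (.w)) (.pow (.s) 2))),
    .c 0⟩

/-- free row column 53 -/
def rf53 : RFz := ⟨⟨3, 10, 3, [(0, 1)]⟩, [0, 0, 0, 0, -1141038479212808400000000, 5783889276960710832000000, -11728015095344873472000000, 12060191991039010560000000, -6582079328814532872000000, 1822018246963120584000000, -214966611590627232000000],
    .mul (.P) (.add (.add (.add (.add (.add (.add (.add (.add (.add (.add (.add (.add (.add (.add (.mul (.mul (.mul (.c 6048) (.P)) (.t)) (.pow (.u) 2)) (.mul (.mul (.c (-4032)) (.P)) (.pow (.t) 3))) (.mul (.mul (.mul (.mul (.c 108) (.P)) (.s)) (.t)) (.v))) (.mul (.mul (.mul (.c 108) (.P)) (.s)) (.pow (.t) 2))) (.mul (.mul (.mul (.c 102) (.P)) (.pow (.s) 2)) (.t))) (.mul (.mul (.mul (.c (-6)) (.P)) (.w)) (.t))) (.mul (.mul (.mul (.mul (.c (-6)) (.P)) (.w)) (.s)) (.t))) (.mul (.mul (.mul (.mul (.c 3360) (.T)) (.s)) (.t)) (.pow (.u) 2))) (.mul (.mul (.mul (.c (-2240)) (.T))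 (.s)) (.pow (.t) 3))) (.mul (.mul (.mul (.mul (.c (-60)) (.T)) (.w)) (.t)) (.v))) (.mul (.mul (.mul (.c (-60)) (.T)) (.w)) (.pow (.t) 2))) (.mul (.mul (.mul (.mul (.c (-60)) (.T)) (.w)) (.s)) (.t))) (.mul (.mul (.mul (.mul (.mul (.c (-60)) (.T)) (.w)) (.s)) (.t)) (.v))) (.mul (.mul (.mul (.mul (.c (-60)) (.T)) (.w)) (.s)) (.pow (.t) 2))) (.mul (.mul (.mul (.mul (.c (-60)) (.T)) (.w)) (.pow (.s) 2)) (.t))),
    .c 0⟩

/-- free row column 54 -/
def rf54 : RFz := ⟨⟨3, 10, 4, [(0, 1)]⟩, [0, 0, 0, 0, -9208058119458024960000000, 93604559763257786880000000, -377480236202132293440000000, 710421069675336304320000000, -665683412453969232960000000, 297138231791577167040000000, -48794467226211040320000000],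
    .mul (.P) (.add (.add (.add (.add (.add (.add (.add (.add (.add (.add (.add (.add (.add (.add (.add (.add (.add (.add (.add (.add (.add (.add (.add (.add (.add (.mul (.mul (.c 2128) (.P)) (.pow (.u) 4)) (.mul (.mul (.mul (.c 10640) (.P)) (.pow (.t) 2)) (.pow (.u) 2))) (.mul (.mul (.c (-10640)) (.P)) (.pow (.t) 4))) (.mul (.mul (.mul (.mul (.c 38) (.P)) (.s)) (.pow (.u) 2)) (.v))) (.mul (.mul (.mul (.mul (.c 38) (.P)) (.s)) (.t)) (.pow (.u) 2))) (.mul (.mul (.mul (.mul (.c 228) (.P)) (.s)) (.pow (.t) 2)) (.v))) (.mul (.mul (.mul (.c 228) (.P)) (.s)) (.pow (.t) 3))) (.mul (.mul (.mul (.c 30) (.P)) (.pow (.s) 2)) (.pow (.u) 2))) (.mul (.mul (.mul (.c 228) (.P)) (.pow (.s) 2)) (.pow (.t) 2))) (.mul (.mul (.mul (.c (-8)) (.P)) (.w)) (.pow (.u) 2))) (.mul (.mul (.mul (.mul (.c (-8)) (.P)) (.w)) (.s)) (.pow (.u) 2))) (.mul (.mul (.mul (.c 1120) (.T)) (.s)) (.pow (.u) 4))) (.mul (.mul (.mul (.mul (.c 5600) (.T)) (.s)) (.pow (.t) 2)) (.pow (.u) 2))) (.mul (.mul (.mul (.c (-5600))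 (.T)) (.s)) (.pow (.t) 4))) (.mul (.mul (.mul (.mul (.c (-20)) (.T)) (.w)) (.pow (.u) 2)) (.v))) (.mul (.mul (.mul (.mul (.c (-20)) (.T)) (.w)) (.t)) (.pow (.u) 2))) (.mul (.mul (.mul (.mul (.c (-120)) (.T)) (.w)) (.pow (.t) 2)) (.v))) (.mul (.mul (.mul (.c (-120)) (.T)) (.w)) (.pow (.t) 3))) (.mul (.mul (.mul (.mul (.c (-20)) (.T)) (.w)) (.s)) (.pow (.u) 2))) (.mul (.mul (.mul (.mul (.mul (.c (-20)) (.T)) (.w)) (.s)) (.pow (.u) 2)) (.v))) (.mul (.mul (.mul (.mul (.mul (.c (-20)) (.T)) (.w)) (.s)) (.t)) (.pow (.u) 2))) (.mul (.mul (.mul (.mul (.c (-120)) (.T)) (.w)) (.s)) (.pow (.t) 2))) (.mul (.mul (.mul (.mul (.mul (.c (-120)) (.T)) (.w)) (.s)) (.pow (.t) 2)) (.v))) (.mul (.mul (.mul (.mul (.c (-120)) (.T)) (.w)) (.s)) (.pow (.t) 3))) (.mul (.mul (.mul (.mul (.c (-20)) (.T)) (.w)) (.pow (.s) 2)) (.pow (.u) 2))) (.mul (.mul (.mul (.mul (.c (-120)) (.T)) (.w)) (.pow (.s) 2)) (.pow (.t) 2))),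
    .c 0⟩

/-- free row column 55 -/
def rf55 : RFz := ⟨⟨3, 11, 2, [(0, 1)]⟩, [0, 0, 0, -5705192396064042000000000, 28919446384803554160000000, -52934883080660325360000000, 31381513570391498640000000, 25729678832651703000000000, -51190868720379449880000000, 31835563586119528200000000, -9110091234815602920000000, 1074833057953136160000000],
    .add (.add (.add (.add (.add (.add (.add (.add (.add (.add (.add (.add (.mul (.mul (.c 1904) (.P)) (.pow (.u) 2)) (.mul (.mul (.mul (.c 34) (.P)) (.s)) (.v))) (.mul (.mul (.mul (.c 34) (.P)) (.s)) (.t))) (.mul (.mul (.c 30) (.P)) (.pow (.s) 2))) (.mul (.mul (.c (-4)) (.P)) (.w))) (.mul (.mul (.mul (.c (-4)) (.P)) (.w)) (.s))) (.mul (.mul (.mul (.c 1232) (.T)) (.s)) (.pow (.u) 2))) (.mul (.mul (.mul (.c (-22)) (.T)) (.w)) (.v))) (.mul (.mul (.mul (.c (-22)) (.T)) (.w)) (.t))) (.mul (.mul (.mul (.c (-22)) (.T)) (.w)) (.s))) (.mul (.mul (.mul (.mul (.c (-22)) (.T)) (.w)) (.s)) (.v))) (.mul (.mul (.mul (.mul (.c (-22)) (.T)) (.w)) (.s))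 (.t))) (.mul (.mul (.mul (.c (-22)) (.T)) (.w)) (.pow (.s) 2)),
    .c 0⟩

/-- free row column 56 -/
def rf56 : RFz := ⟨⟨3, 11, 4, [(0, 1)]⟩, [0, 0, 0, 0, 0, -106496924726528784000000000, 539829665849666344320000000, -1094614742232188190720000000, 1125617919163640985600000000, -614327404022689734720000000, 170055036383224587840000000, -20063550415125208320000000],
    .add (.add (.add (.add (.add (.add (.add (.add (.add (.add (.add (.add (.add (.add (.add (.add (.add (.add (.add (.add (.add (.add (.add (.add (.add (.mul (.mul (.c 2128) (.P)) (.pow (.u) 4)) (.mul (.mul (.mul (.c 10640) (.P)) (.pow (.t) 2)) (.pow (.u) 2))) (.mul (.mul (.c (-10640)) (.P)) (.pow (.t) 4))) (.mul (.mul (.mul (.mul (.c 38) (.P)) (.s)) (.pow (.u) 2)) (.v))) (.mul (.mul (.mul (.mul (.c 38) (.P)) (.s)) (.t)) (.pow (.u) 2))) (.mul (.mul (.mul (.mul (.c 228) (.P)) (.s)) (.pow (.t) 2)) (.v))) (.mul (.mul (.mul (.c 228) (.P)) (.s)) (.pow (.t) 3))) (.mul (.mul (.mul (.c 30) (.P)) (.pow (.s) 2)) (.pow (.u)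 2))) (.mul (.mul (.mul (.c 228) (.P)) (.pow (.s) 2)) (.pow (.t) 2))) (.mul (.mul (.mul (.c (-8)) (.P)) (.w)) (.pow (.u) 2))) (.mul (.mul (.mul (.mul (.c (-8)) (.P)) (.w)) (.s)) (.pow (.u) 2))) (.mul (.mul (.mul (.c 1232) (.T)) (.s)) (.pow (.u) 4))) (.mul (.mul (.mul (.mul (.c 6160) (.T)) (.s)) (.pow (.t) 2)) (.pow (.u) 2))) (.mul (.mul (.mul (.c (-6160)) (.T)) (.s)) (.pow (.t) 4))) (.mul (.mul (.mul (.mul (.c (-22)) (.T)) (.w)) (.pow (.u) 2)) (.v))) (.mul (.mul (.mul (.mul (.c (-22)) (.T)) (.w)) (.t)) (.pow (.u) 2))) (.mul (.mul (.mul (.mul (.c (-132)) (.T)) (.w)) (.pow (.t) 2)) (.v))) (.mul (.mul (.mul (.c (-132)) (.T)) (.w)) (.pow (.t) 3))) (.mul (.mul (.mul (.mul (.c (-22)) (.T)) (.w)) (.s)) (.pow (.u) 2))) (.mul (.mul (.mul (.mul (.mul (.c (-22)) (.T)) (.w)) (.s)) (.pow (.u) 2)) (.v))) (.mul (.mul (.mul (.mul (.mul (.c (-22)) (.T)) (.w)) (.s)) (.t)) (.pow (.u) 2))) (.mul (.mul (.mul (.mul (.c (-132)) (.T)) (.w)) (.s)) (.pow (.t) 2))) (.mul (.mul (.mul (.mul (.mul (.c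 (-132)) (.T)) (.w)) (.s)) (.pow (.t) 2)) (.v))) (.mul (.mul (.mul (.mul (.c (-132)) (.T)) (.w)) (.s)) (.pow (.t) 3))) (.mul (.mul (.mul (.mul (.c (-22)) (.T)) (.w)) (.pow (.s) 2)) (.pow (.u) 2))) (.mul (.mul (.mul (.mul (.c (-132)) (.T)) (.w)) (.pow (.s) 2)) (.pow (.t) 2)),
    .c 0⟩

/-- free row column 57 -/
def rf57 : RFz := ⟨⟨3, 8, 0, [(1, 1)]⟩, [0, 0, 41222889017498790000000, -156845353565878362000000, 186734453700195702000000, -4235967253227150000000, -155499441627285693000000, 113691656668008321000000, -25067734156693998000000],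
    .mul (.pow (.P) 3) (.add (.mul (.mul (.c 1792) (.P)) (.s)) (.mul (.mul (.c 896) (.T)) (.pow (.s) 2))),
    .c 0⟩

/-- free row column 58 -/
def rf58 : RFz := ⟨⟨3, 9, 2, [(1, 1)]⟩, [0, 0, 0, -1259019061841894220000000, 19350914427071258850000000, -69238565180016065662500000, 106468742660778860118750000, -79751344805402204182500000, 27840509681215586355000000, -3411411651577414091250000],
    .mul (.pow (.P) 2) (.add (.add (.add (.add (.add (.add (.add (.add (.add (.add (.add (.add (.add (.add (.add (.add (.mul (.mul (.mul (.c 2016) (.P)) (.s)) (.pow (.u) 2)) (.mul (.mul (.mul (.c 34) (.P)) (.pow (.s) 2)) (.v))) (.mul (.mul (.mul (.c 34) (.P)) (.pow (.s) 2)) (.t))) (.mul (.mul (.c 30) (.P)) (.pow (.s) 3))) (.mul (.mul (.mul (.c (-2)) (.P)) (.w)) (.v))) (.mul (.mul (.mul (.c (-2)) (.P)) (.w)) (.t))) (.mul (.mul (.mul (.c (-6)) (.P)) (.w)) (.s))) (.mul (.mul (.mul (.mul (.c (-2)) (.P)) (.w)) (.s)) (.v))) (.mul (.mul (.mul (.mul (.c (-2)) (.P)) (.w)) (.s)) (.t))) (.mul (.mul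 (.mul (.c (-6)) (.P)) (.w)) (.pow (.s) 2))) (.mul (.mul (.mul (.c 1008) (.T)) (.pow (.s) 2)) (.pow (.u) 2))) (.mul (.mul (.mul (.mul (.c (-18)) (.T)) (.w)) (.s)) (.v))) (.mul (.mul (.mul (.mul (.c (-18)) (.T)) (.w)) (.s)) (.t))) (.mul (.mul (.mul (.c (-18)) (.T)) (.w)) (.pow (.s) 2))) (.mul (.mul (.mul (.mul (.c (-18)) (.T)) (.w)) (.pow (.s) 2)) (.v))) (.mul (.mul (.mul (.mul (.c (-18)) (.T)) (.w)) (.pow (.s) 2)) (.t))) (.mul (.mul (.mul (.c (-18)) (.T)) (.w)) (.pow (.s) 3))),
    .c 0⟩

/-- free row column 59 -/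
def rf59 : RFz := ⟨⟨3, 9, 3, [(1, 1)]⟩, [0, 0, 0, 0, 123322206957027120000000, -2567006215817359680000000, 8588477839007129490000000, -11385258061480634520000000, 6656881442552106570000000, -1416414758819804730000000],
    .mul (.pow (.P) 2) (.add (.add (.add (.add (.add (.add (.add (.add (.add (.add (.add (.add (.add (.add (.add (.add (.add (.add (.mul (.mul (.mul (.mul (.c 6384) (.P)) (.s)) (.t)) (.pow (.u) 2)) (.mul (.mul (.mul (.c (-4256)) (.P)) (.s)) (.pow (.t) 3))) (.mul (.mul (.mul (.mul (.c 108) (.P)) (.pow (.s) 2)) (.t)) (.v))) (.mul (.mul (.mul (.c 108) (.P)) (.pow (.s) 2)) (.pow (.t) 2))) (.mul (.mul (.mul (.c 102) (.P)) (.pow (.s) 3)) (.t))) (.mul (.mul (.mul (.mul (.c (-6)) (.P)) (.w)) (.t)) (.v))) (.mul (.mul (.mul (.c (-6)) (.P)) (.w)) (.pow (.t) 2))) (.mul (.mul (.mul (.mul (.c (-12)) (.P)) (.w)) (.s)) (.t))) (.mul (.mul (.mul (.mul (.mul (.c (-6)) (.P)) (.w)) (.s)) (.t)) (.v))) (.mul (.mul (.mul (.mul (.c (-6)) (.P)) (.w)) (.s)) (.pow (.t) 2))) (.mul (.mul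 (.mul (.mul (.c (-12)) (.P)) (.w)) (.pow (.s) 2)) (.t))) (.mul (.mul (.mul (.mul (.c 3024) (.T)) (.pow (.s) 2)) (.t)) (.pow (.u) 2))) (.mul (.mul (.mul (.c (-2016)) (.T)) (.pow (.s) 2)) (.pow (.t) 3))) (.mul (.mul (.mul (.mul (.mul (.c (-54)) (.T)) (.w)) (.s)) (.t)) (.v))) (.mul (.mul (.mul (.mul (.c (-54)) (.T)) (.w)) (.s)) (.pow (.t) 2))) (.mul (.mul (.mul (.mul (.c (-54)) (.T)) (.w)) (.pow (.s) 2)) (.t))) (.mul (.mul (.mul (.mul (.mul (.c (-54)) (.T)) (.w)) (.pow (.s) 2)) (.t)) (.v))) (.mul (.mul (.mul (.mul (.c (-54)) (.T)) (.w)) (.pow (.s) 2)) (.pow (.t) 2))) (.mul (.mul (.mul (.mul (.c (-54)) (.T)) (.w)) (.pow (.s) 3)) (.t))),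
    .c 0⟩

/-- free row column 60 -/
def rf60 : RFz := ⟨⟨3, 10, 4, [(1, 1)]⟩, [0, 0, 0, 0, 0, 9208058119458024960000000, -191669797447696189440000000, 641273011979199001920000000, -850099268590554044160000000, 497047147710557290560000000, -105758968658545419840000000],
    .mul (.P) (.add (.add (.add (.add (.add (.add (.add (.add (.add (.add (.add (.add (.add (.add (.add (.add (.add (.add (.add (.add (.add (.add (.add (.add (.add (.add (.add (.add (.add (.add (.add (.add (.add (.add (.add (.mul (.mul (.mul (.c 2240) (.P)) (.s)) (.pow (.u) 4)) (.mul (.mul (.mul (.mul (.c 11200) (.P)) (.s)) (.pow (.t) 2)) (.pow (.u) 2))) (.mul (.mul (.mul (.c (-11200)) (.P)) (.s)) (.pow (.t) 4))) (.mul (.mul (.mul (.mul (.c 38) (.P)) (.pow (.s) 2)) (.pow (.u) 2)) (.v))) (.mul (.mul (.mul (.mul (.c 38) (.P)) (.pow (.s) 2)) (.t)) (.pow (.u) 2))) (.mul (.mul (.mul (.mul (.c 228) (.P)) (.pow (.s) 2)) (.pow (.t) 2)) (.v))) (.mul (.mul (.mul (.c 228) (.P)) (.pow (.s) 2)) (.pow (.t) 3))) (.mul (.mul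 (.mul (.c 30) (.P)) (.pow (.s) 3)) (.pow (.u) 2))) (.mul (.mul (.mul (.c 228) (.P)) (.pow (.s) 3)) (.pow (.t) 2))) (.mul (.mul (.mul (.mul (.c (-2)) (.P)) (.w)) (.pow (.u) 2)) (.v))) (.mul (.mul (.mul (.mul (.c (-2)) (.P)) (.w)) (.t)) (.pow (.u) 2))) (.mul (.mul (.mul (.mul (.c (-12)) (.P)) (.w)) (.pow (.t) 2)) (.v))) (.mul (.mul (.mul (.c (-12)) (.P)) (.w)) (.pow (.t) 3))) (.mul (.mul (.mul (.mul (.c (-10)) (.P)) (.w)) (.s)) (.pow (.u) 2))) (.mul (.mul (.mul (.mul (.mul (.c (-2)) (.P)) (.w)) (.s)) (.pow (.u) 2)) (.v))) (.mul (.mul (.mul (.mul (.mul (.c (-2)) (.P)) (.w)) (.s)) (.t)) (.pow (.u) 2))) (.mul (.mul (.mul (.mul (.c (-12)) (.P)) (.w)) (.s)) (.pow (.t) 2))) (.mul (.mul (.mul (.mul (.mul (.c (-12)) (.P)) (.w)) (.s)) (.pow (.t) 2)) (.v))) (.mul (.mul (.mul (.mul (.c (-12)) (.P)) (.w)) (.s)) (.pow (.t) 3))) (.mul (.mul (.mul (.mul (.c (-10)) (.P)) (.w)) (.pow (.s) 2)) (.pow (.u) 2))) (.mul (.mul (.mul (.mul (.c (-12)) (.P)) (.w)) (.pow (.s) 2)) (.pow (.t) 2))) (.mul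 (.mul (.mul (.c 1120) (.T)) (.pow (.s) 2)) (.pow (.u) 4))) (.mul (.mul (.mul (.mul (.c 5600) (.T)) (.pow (.s) 2)) (.pow (.t) 2)) (.pow (.u) 2))) (.mul (.mul (.mul (.c (-5600)) (.T)) (.pow (.s) 2)) (.pow (.t) 4))) (.mul (.mul (.mul (.mul (.mul (.c (-20)) (.T)) (.w)) (.s)) (.pow (.u) 2)) (.v))) (.mul (.mul (.mul (.mul (.mul (.c (-20)) (.T)) (.w)) (.s)) (.t)) (.pow (.u) 2))) (.mul (.mul (.mul (.mul (.mul (.c (-120)) (.T)) (.w)) (.s)) (.pow (.t) 2)) (.v))) (.mul (.mul (.mul (.mul (.c (-120)) (.T)) (.w)) (.s)) (.pow (.t) 3))) (.mul (.mul (.mul (.mul (.c (-20)) (.T)) (.w)) (.pow (.s) 2)) (.pow (.u) 2))) (.mul (.mul (.mul (.mul (.mul (.c (-20)) (.T)) (.w)) (.pow (.s) 2)) (.pow (.u) 2)) (.v))) (.mul (.mul (.mul (.mul (.mul (.c (-20)) (.T)) (.w)) (.pow (.s) 2)) (.t)) (.pow (.u) 2))) (.mul (.mul (.mul (.mul (.c (-120)) (.T)) (.w)) (.pow (.s) 2)) (.pow (.t) 2))) (.mul (.mul (.mul (.mul (.mul (.c (-120)) (.T)) (.w)) (.pow (.s) 2)) (.pow (.t) 2)) (.v))) (.mul (.mul (.mul (.mul (.c (-120))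 (.T)) (.w)) (.pow (.s) 2)) (.pow (.t) 3))) (.mul (.mul (.mul (.mul (.c (-20)) (.T)) (.w)) (.pow (.s) 3)) (.pow (.u) 2))) (.mul (.mul (.mul (.mul (.c (-120)) (.T)) (.w)) (.pow (.s) 3)) (.pow (.t) 2))),
    .c 0⟩

/-- free row column 61 -/
def rf61 : RFz := ⟨⟨3, 8, 0, [(2, 1)]⟩, [0, 0, -5662754401087980000000, 91813732038903420000000, -324270885098683372500000, 485675593672575442500000, -350485060059634342500000, 115894912164406357500000, -12966216843699787500000],
    .mul (.mul (.s) (.pow (.P) 3)) (.add (.mul (.mul (.c 1904) (.P)) (.s)) (.mul (.mul (.c 896) (.T)) (.pow (.s) 2))),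
    .c 0⟩

/-- free row column 62 -/
def rf62 : RFz := ⟨⟨3, 9, 2, [(2, 1)]⟩, [0, 0, 0, 0, 783662289617231010000000, -16312276743880211640000000, 54576271165731529488750000, -72348667936602705585000000, 42301764472952289453750000, -9000737663826871383750000],
    .mul (.mul (.s) (.pow (.P) 2)) (.add (.add (.add (.add (.add (.add (.add (.add (.add (.add (.add (.add (.add (.add (.add (.add (.mul (.mul (.mul (.c 2128) (.P)) (.s)) (.pow (.u) 2)) (.mul (.mul (.mul (.c 34) (.P)) (.pow (.s) 2)) (.v))) (.mul (.mul (.mul (.c 34) (.P)) (.pow (.s) 2)) (.t))) (.mul (.mul (.c 30) (.P)) (.pow (.s) 3))) (.mul (.mul (.mul (.c (-4)) (.P)) (.w)) (.v))) (.mul (.mul (.mul (.c (-4)) (.P)) (.w)) (.t))) (.mul (.mul (.mul (.c (-8)) (.P)) (.w)) (.s))) (.mul (.mul (.mul (.mul (.c (-4)) (.P)) (.w)) (.s)) (.v))) (.mul (.mul (.mul (.mul (.c (-4)) (.P)) (.w)) (.s)) (.t))) (.mul (.mul (.mul (.c (-8)) (.P)) (.w)) (.pow (.s) 2))) (.mul (.mul (.mul (.c 1008) (.T)) (.pow (.s) 2)) (.pow (.u) 2))) (.mul (.mul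 (.mul (.mul (.c (-18)) (.T)) (.w)) (.s)) (.v))) (.mul (.mul (.mul (.mul (.c (-18)) (.T)) (.w)) (.s)) (.t))) (.mul (.mul (.mul (.c (-18)) (.T)) (.w)) (.pow (.s) 2))) (.mul (.mul (.mul (.mul (.c (-18)) (.T)) (.w)) (.pow (.s) 2)) (.v))) (.mul (.mul (.mul (.mul (.c (-18)) (.T)) (.w)) (.pow (.s) 2)) (.t))) (.mul (.mul (.mul (.c (-18)) (.T)) (.w)) (.pow (.s) 3))),
    .c 0⟩

/-- free row column 63 -/
def rf63 : RFz := ⟨⟨3, 8, 0, [(3, 1)]⟩, [0, 0, 0, 3460572133998210000000, -72033337688752440000000, 241003204666016388750000, -319484282337466785000000, 186800244561411153750000, -39746332517902683750000],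
    .mul (.mul (.pow (.s) 2) (.pow (.P) 3)) (.add (.mul (.mul (.c 2016) (.P)) (.s)) (.mul (.mul (.c 896) (.T)) (.pow (.s) 2))),
    .c 0⟩

/-- the free value columns -/
def lf : List VFz := [vf0, vf1, vf2, vf3, vf4, vf5, vf6, vf7, vf8, vf9, vf10, vf11, vf12, vf13, vf14, vf15, vf16, vf17, vf18, vf19, vf20, vf21, vf22, vf23, vf24, vf25, vf26, vf27, vf28, vf29, vf30, vf31, vf32, vf33, vf34, vf35, vf36, vf37, vf38, vf39, vf40, vf41, vf42, vf43, vf44, vf45, vf46, vf47, vf48, vf49, vf50, vf51, vf52, vf53, vf54, vf55, vf56, vf57, vf58, vf59, vf60, vf61, vf62, vf63, vf64, vf65, vf66, vf67, vf68, vf69, vf70, vf71, vf72, vf73, vf74, vf75, vf76, vf77, vf78, vf79, vf80, vf81, vf82, vf83, vf84, vf85, vf86, vf87, vf88, vf89, vf90, vf91, vf92, vf93, vf94, vf95, vf96, vf97, vf98, vf99, vf100, vf101, vf102, vf103, vf104, vf105, vf106, vf107, vf108, vf109, vf110, vf111, vf112, vf113, vf114, vf115, vf116, vf117, vf118, vf119, vf120, vf121, vf122, vf123, vf124, vf125, vf126, vf127, vf128, vf129,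 vf130, vf131, vf132, vf133, vf134, vf135, vf136, vf137, vf138, vf139, vf140, vf141, vf142, vf143, vf144, vf145, vf146, vf147, vf148, vf149, vf150, vf151, vf152, vf153, vf154, vf155, vf156, vf157, vf158, vf159, vf160, vf161, vf162, vf163, vf164, vf165, vf166, vf167, vf168, vf169, vf170, vf171, vf172, vf173, vf174, vf175, vf176, vf177, vf178, vf179, vf180]

/-- the free row columns -/
def rf : List RFz := [rf0, rf1, rf2, rf3, rf4, rf5, rf6, rf7, rf8, rf9, rf10, rf11, rf12, rf13, rf14, rf15, rf16, rf17, rf18, rf19, rf20, rf21, rf22, rf23, rf24, rf25, rf26, rf27, rf28, rf29, rf30, rf31, rf32, rf33, rf34, rf35, rf36, rf37, rf38, rf39, rf40, rf41, rf42, rf43, rf44, rf45, rf46, rf47, rf48, rf49, rf50, rf51, rf52, rf53, rf54, rf55, rf56, rf57, rf58, rf59, rf60, rf61, rf62, rf63]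

/-- all columns -/
def cl : List Cz := clZ (VD dl c0 kB kF lb lf) (RD dl c0 kB kF rb rf)

set_option maxRecDepth 100000 in
lemma ok_all : okD lb lf rb rf = true := by decide +kernel

set_option maxRecDepth 100000 in
/-- the errors -/
lemma err_ok : errZ 12 3 5 cl 29732718300364800000 33036353667072000 = true := by decide +kernel

end

end Vale.Agent.P224.S15.Z15
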